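import Vale.Agent.P299.H835.IX.FockD
import Mathlib.LinearAlgebra.Matrix.Rank

/-! P301, H951 (N3-PT): linear algebra of `{t : t ∧ u = 0}` -/

open scoped ComplexConjugate ComplexOrder Matrix
open Finset Vale.Agent.P299.IX Vale.Agent.P299.IX.Fock

set_option linter.all false

noncomputable section

namespace Vale.Agent.P301.H951

variable {d : ℕ} {A : Type*}

/-- the covectors `t` with `t ∧ u_c = 0` for all `c` -/
def ann (u : A → FI d → ℂ) : Submodule ℂ (Fin d → ℂ) where
  carrier := {t | ∀ c, epsV t *ᵥ u c = 0}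
  add_mem' {s t} hs ht c := by
    rw [epsV_add, Matrix.add_mulVec, hs c, ht c, add_zero]
  zero_mem' c := by
    have : epsV (0 : Fin d → ℂ) = 0 := by
      have := epsV_smul (0 : ℂ) (0 : Fin d → ℂ)
      simpa using this
    rw [this, Matrix.zero_mulVec]
  smul_mem' a t ht c := by
    rw [epsV_smul, Matrix.smul_mulVec, ht c, smul_zero]

theorem mem_ann {u : A → FI d → ℂ} {t : Fin d → ℂ} : t ∈ ann u ↔ ∀ c, epsV t *ᵥ u c = 0 := Iff.rfl

theorem epsV_mulVec_apply (t : Fin d → ℂ) (a : FI d → ℂ) (J : FI d) :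
    (epsV t *ᵥ a) J = ∑ l, (eps l *ᵥ a) J * t l := by
  unfold epsV
  rw [Matrix.sum_mulVec, Finset.sum_apply]
  refine Finset.sum_congr rfl fun l _ => ?_
  rw [Matrix.smul_mulVec, Pi.smul_apply, smul_eq_mul, mul_comm]

/-- linearly independent vectors have a nonzero minor -/
theorem exists_minor {r : ℕ} {v : Fin r → Fin d → ℂ} (hv : LinearIndependent ℂ v) :
    ∃ s : Fin r → Fin d, (Matrix.of fun i j => v i (s j)).det ≠ 0 := by
  set M : Matrix (Fin r) (Fin d) ℂ := Matrix.of v with hM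
  have h1 : M.rank = r := by
    rw [← Matrix.rank_transpose, Matrix.rank_eq_finrank_span_cols]
    have : Mᵀ.col = v := rfl
    rw [this, finrank_span_eq_card hv, Fintype.card_fin]
  rw [Matrix.rank_eq_finrank_span_cols] at h1
  have hex := Submodule.exists_fun_fin_finrank_span_eq ℂ (Set.range M.col)
  rw [h1] at hex
  obtain ⟨f, hf1, hf2, hf3⟩ := hex
  choose s hs using hf1
  refine ⟨s, ?_⟩
  have h2 : (Matrix.of fun i j => v i (s j))ᵀ = Matrix.of f := by
    ext i j
    rw [Matrix.of_apply, ← hs i]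
    rfl
  rw [← Matrix.det_transpose, h2]
  have h3 : IsUnit (Matrix.of f) := Matrix.linearIndependent_rows_iff_isUnit.1 hf3
  exact ((Matrix.isUnit_iff_isUnit_det _).1 h3).ne_zero

/-- vanishing of the minors bounds the codimension of the annihilator -/
theorem le_finrank_ann {u : A → FI d → ℂ} {k : ℕ}
    (h : ∀ (c : Fin (k + 1) → A) (J : Fin (k + 1) → FI d) (s : Fin (k + 1) → Fin d),
      (Matrix.of fun i j => (eps (s j) *ᵥ u (c i)) (J i)).det = 0) :
    d - k ≤ Module.finrank ℂ (ann u) := by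
  set v : A × FI d → Fin d → ℂ := fun q l => (eps l *ᵥ u q.1) q.2 with hv
  have hex := Submodule.exists_fun_fin_finrank_span_eq ℂ (Set.range v)
  obtain ⟨r, hr⟩ : ∃ r, Module.finrank ℂ (Submodule.span ℂ (Set.range v)) = r := ⟨_, rfl⟩
  rw [hr] at hex
  obtain ⟨f, hf1, hf2, hf3⟩ := hex
  have hrk : r ≤ k := by
    by_contra hcon
    push Not at hcon
    choose q hq using hf1
    have hli : LinearIndependent ℂ (fun i : Fin (k + 1) => f (Fin.castLE hcon i)) :=
      hf3.comp _ (Fin.castLE_injective hcon)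
    obtain ⟨s, hs⟩ := exists_minor hli
    refine hs ?_
    have := h (fun i => (q (Fin.castLE hcon i)).1) (fun i => (q (Fin.castLE hcon i)).2) s
    rw [← this]
    congr 1
    ext i j
    rw [Matrix.of_apply, Matrix.of_apply, ← hq]
  let φ : (Fin d → ℂ) →ₗ[ℂ] (Fin r → ℂ) := Matrix.mulVecLin (Matrix.of f)
  have h1 : LinearMap.ker φ ≤ ann u := by
    intro t ht c
    ext J
    rw [epsV_mulVec_apply]
    have h2 : v (c, J) ∈ Submodule.span ℂ (Set.range f) := by
      rw [hf2]; exact Submodule.subset_span ⟨_, rfl⟩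
    have h3 : ∀ x ∈ Submodule.span ℂ (Set.range f), ∑ l, x l * t l = 0 := by
      intro x hx
      induction hx using Submodule.span_induction with
      | mem x hx =>
        obtain ⟨i, rfl⟩ := hx
        exact congrFun (LinearMap.mem_ker.1 ht) i
      | zero => simp
      | add x y _ _ hx hy => simp only [Pi.add_apply, add_mul, Finset.sum_add_distrib, hx, hy, add_zero]
      | smul a x _ hx =>
        simp only [Pi.smul_apply, smul_eq_mul, mul_assoc, ← Finset.mul_sum, hx, mul_zero]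
    exact h3 _ h2
  have h2 := LinearMap.finrank_range_add_finrank_ker φ
  have h3 : Module.finrank ℂ (LinearMap.range φ) ≤ r := by
    refine (Submodule.finrank_le _).trans ?_
    simp
  have h4 := Submodule.finrank_mono h1
  rw [Module.finrank_fintype_fun_eq_card, Fintype.card_fin] at h2
  omega

/-- the first `q` indices -/
def Hq (d q : ℕ) : Finset (Fin d) := univ.filter fun j : Fin d => (j : ℕ) < q

theorem mem_Hq {q : ℕ} {j : Fin d} : j ∈ Hq d q ↔ (j : ℕ) < q := by
  simp [Hq]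

theorem card_Hq {q : ℕ} (hq : q ≤ d) : (Hq d q).card = q := by
  have h1 : (Hq d q) = (univ : Finset (Fin q)).map (Fin.castLEEmb hq) := by
    ext j
    simp only [mem_Hq, Finset.mem_map, Finset.mem_univ, true_and]
    constructor
    · intro h
      exact ⟨⟨j, h⟩, by ext; rfl⟩
    · rintro ⟨i, rfl⟩
      exact i.2
  rw [h1, Finset.card_map, Finset.card_univ, Fintype.card_fin]

/-- a matrix with prescribed first columns -/
theorem exists_matrix {q : ℕ} (E : Submodule ℂ (Fin d → ℂ)) (hE : q ≤ Module.finrank ℂ E) :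
    ∃ T U : Matrix (Fin d) (Fin d) ℂ, U * T = 1 ∧ T * U = 1 ∧
      ∀ j : Fin d, (j : ℕ) < q → (fun i => T i j) ∈ E := by
  classical
  set e := Module.finrank ℂ E with he
  have hed : e ≤ d := by
    have := Submodule.finrank_le E
    rwa [Module.finrank_fintype_fun_eq_card, Fintype.card_fin] at this
  obtain ⟨C, hC⟩ := Submodule.exists_isCompl E
  have hCd : Module.finrank ℂ C = d - e := by
    have := Submodule.finrank_add_eq_of_isCompl hC
    rw [Module.finrank_fintype_fun_eq_card, Fintype.card_fin] at this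
    omega
  let b1 := Module.finBasisOfFinrankEq ℂ E he.symm
  let b2 := Module.finBasisOfFinrankEq ℂ C hCd
  let b : Module.Basis (Fin e ⊕ Fin (d - e)) ℂ (Fin d → ℂ) :=
    (b1.prod b2).map (Submodule.prodEquivOfIsCompl E C hC)
  let σ : Fin e ⊕ Fin (d - e) ≃ Fin d := finSumFinEquiv.trans (finCongr (by omega))
  let b' := b.reindex σ
  let T : Matrix (Fin d) (Fin d) ℂ := (Pi.basisFun ℂ (Fin d)).toMatrix b'
  let U : Matrix (Fin d) (Fin d) ℂ := b'.toMatrix (Pi.basisFun ℂ (Fin d))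
  refine ⟨T, U, ?_, ?_, ?_⟩
  · exact Module.Basis.toMatrix_mul_toMatrix_flip _ _
  · exact Module.Basis.toMatrix_mul_toMatrix_flip _ _
  · intro j hj
    have h1 : (fun i => T i j) = b' j := by
      ext i
      simp [T, Module.Basis.toMatrix_apply]
    rw [h1]
    have hje : (j : ℕ) < e := lt_of_lt_of_le hj hE
    have h2 : σ.symm j = Sum.inl ⟨j, hje⟩ := by
      rw [Equiv.symm_apply_eq]
      ext
      simp [σ]
    have h3 : b' j = b (Sum.inl ⟨j, hje⟩) := by
      rw [← h2]
      exact Module.Basis.reindex_apply _ _ _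
    rw [h3]
    simp only [b, Module.Basis.map_apply, Module.Basis.prod_apply_inl_fst, Submodule.coe_prodEquivOfIsCompl]
    simp

theorem epsV_lam (T : Matrix (Fin d) (Fin d) ℂ) (v : Fin d → ℂ) (a : FI d → ℂ) :
    epsV (T *ᵥ v) *ᵥ (lam T *ᵥ a) = lam T *ᵥ (epsV v *ᵥ a) := by
  rw [Matrix.mulVec_mulVec, Matrix.mulVec_mulVec, lam_epsV]

theorem eps_eq_zero_iff {a : FI d → ℂ} {j : Fin d} (h : eps j *ᵥ a = 0) {I : FI d} (hj : j ∉ I) :
    a I = 0 := by
  have h1 := congrFun h (insert j I)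
  rw [eps_mulVec, if_pos (Finset.mem_insert_self _ _), Finset.erase_insert hj, Pi.zero_apply] at h1
  have h2 : sg j (insert j I) ≠ 0 := by
    intro h3
    have := sg_mul_self j (insert j I)
    rw [h3, zero_mul] at this
    exact zero_ne_one this
  exact (mul_eq_zero.1 h1).resolve_left h2

/-- **Frames adapted to the annihilator.** -/
theorem exists_frame_ann {u : A → FI d → ℂ} {q : ℕ} (h : q ≤ Module.finrank ℂ (ann u)) :
    ∃ T U : Matrix (Fin d) (Fin d) ℂ, U * T = 1 ∧ T * U = 1 ∧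
      (∀ j : Fin d, (j : ℕ) < q → (fun i => T i j) ∈ ann u) ∧
      ∀ c I, ¬ Hq d q ⊆ I → (lam U *ᵥ u c) I = 0 := by
  obtain ⟨T, U, hUT, hTU, hT⟩ := exists_matrix (ann u) h
  refine ⟨T, U, hUT, hTU, hT, fun c I hI => ?_⟩
  obtain ⟨j, hj, hjI⟩ := Finset.not_subset.1 hI
  refine eps_eq_zero_iff (j := j) ?_ hjI
  have h1 : U *ᵥ (fun i => T i j) = Pi.single j 1 := by
    ext i
    have := congrFun (congrFun hUT i) j
    rw [Matrix.mul_apply, Matrix.one_apply] at this
    rw [Matrix.mulVec, dotProduct, this, Pi.single_apply]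
  rw [← epsV_single, ← h1, epsV_lam, hT j (mem_Hq.1 hj) c, Matrix.mulVec_zero]

/-- the vector of coordinates of a form of degree `q + 1` divisible by `ev (Hq d q)` -/
def coef (q : ℕ) (x : FI d → ℂ) : Fin d → ℂ := fun l =>
  if l ∈ Hq d q then 0 else sg l (Hq d q) * x (insert l (Hq d q))

theorem epsV_coef {q : ℕ} (hqd : q ≤ d) {x : FI d → ℂ} (hx : ∀ I, ¬ Hq d q ⊆ I → x I = 0)
    (hx' : ∀ I, I.card ≠ q + 1 → x I = 0) : epsV (coef q x) *ᵥ ev (Hq d q) = x := by
  ext I
  rw [epsV_mulVec_apply]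
  by_cases hI : ∃ l, l ∉ Hq d q ∧ insert l (Hq d q) = I
  · obtain ⟨l, hl, rfl⟩ := hI
    rw [Finset.sum_eq_single l]
    · rw [eps_ev_of_notMem hl, coef, if_neg hl, Pi.smul_apply, smul_eq_mul, ev, Pi.single_eq_same,
        mul_one, ← mul_assoc, sg_mul_self, one_mul]
    · intro l' _ hl'
      by_cases h : l' ∈ Hq d q
      · rw [coef, if_pos h, mul_zero]
      · rw [eps_ev_of_notMem h, Pi.smul_apply, smul_eq_mul, ev, Pi.single_eq_of_ne, mul_zero,
          zero_mul]
        intro h2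
        have h3 : l ∈ insert l' (Hq d q) := by rw [← h2]; exact Finset.mem_insert_self _ _
        rcases Finset.mem_insert.1 h3 with h4 | h4
        · exact hl' h4.symm
        · exact hl h4
    · intro h
      exact absurd (Finset.mem_univ _) h
  · have h1 : x I = 0 := by
      by_cases h2 : Hq d q ⊆ I
      · refine hx' I fun h3 => hI ?_
        have h4 : (I \ Hq d q).card = 1 := by
          rw [Finset.card_sdiff_of_subset h2, h3, card_Hq hqd]
          omega
        obtain ⟨l, hl⟩ := Finset.card_eq_one.1 h4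
        refine ⟨l, fun h5 => ?_, ?_⟩
        · have : l ∈ I \ Hq d q := by rw [hl]; exact Finset.mem_singleton_self _
          exact (Finset.mem_sdiff.1 this).2 h5
        · rw [← Finset.sdiff_union_of_subset h2, hl]
          rfl
      · exact hx I h2
    rw [h1]
    refine Finset.sum_eq_zero fun l _ => ?_
    by_cases h : l ∈ Hq d q
    · rw [coef, if_pos h, mul_zero]
    · rw [eps_ev_of_notMem h, Pi.smul_apply, smul_eq_mul, ev, Pi.single_eq_of_ne, mul_zero,
        zero_mul]
      intro h2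
      exact hI ⟨l, h, h2.symm⟩

theorem lam_mulVec_degree (T : Matrix (Fin d) (Fin d) ℂ) {x : FI d → ℂ} {p : ℕ}
    (hx : ∀ I, I.card ≠ p → x I = 0) {I : FI d} (hI : I.card ≠ p) : (lam T *ᵥ x) I = 0 := by
  simp only [Matrix.mulVec, dotProduct]
  refine Finset.sum_eq_zero fun K _ => ?_
  by_cases hK : K.card = p
  · rw [lam_apply_of_card_ne T (by rw [hK]; exact hI), zero_mul]
  · rw [hx K hK, mul_zero]

section beta

variable {T U : Matrix (Fin d) (Fin d) ℂ} {q : ℕ}

theorem beta_ne_zero (hUT : U * T = 1) : lam T *ᵥ ev (Hq d q) ≠ 0 := by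
  intro h
  have h1 : lam U *ᵥ (lam T *ᵥ ev (Hq d q)) = ev (Hq d q) := by
    rw [Matrix.mulVec_mulVec, ← lam_mul, hUT, lam_one, Matrix.one_mulVec]
  rw [h, Matrix.mulVec_zero] at h1
  have := congrFun h1 (Hq d q)
  simp [ev] at this

theorem beta_degree (hqd : q ≤ d) {I : FI d} (hI : I.card ≠ q) :
    (lam T *ᵥ ev (Hq d q)) I = 0 := by
  refine lam_mulVec_degree T (p := q) (fun I hI => ?_) hI
  rw [ev, Pi.single_eq_of_ne]
  rintro rfl
  exact hI (card_Hq hqd)

theorem eq_epsV_beta (hTU : T * U = 1) (hqd : q ≤ d) {x : FI d → ℂ}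
    (hx : ∀ I, ¬ Hq d q ⊆ I → (lam U *ᵥ x) I = 0) (hx' : ∀ I, I.card ≠ q + 1 → x I = 0) :
    x = epsV (T *ᵥ coef q (lam U *ᵥ x)) *ᵥ (lam T *ᵥ ev (Hq d q)) := by
  rw [epsV_lam, epsV_coef hqd hx fun I hI => lam_mulVec_degree U hx' hI, Matrix.mulVec_mulVec,
    ← lam_mul, hTU, lam_one, Matrix.one_mulVec]

end beta

/-- **The decomposable factor.** -/
theorem exists_beta {u : A → FI d → ℂ} {q : ℕ} (h : q ≤ Module.finrank ℂ (ann u)) :
    ∃ T U : Matrix (Fin d) (Fin d) ℂ, U * T = 1 ∧ T * U = 1 ∧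
      (∀ j : Fin d, (j : ℕ) < q → (fun i => T i j) ∈ ann u) ∧
      (∀ c I, ¬ Hq d q ⊆ I → (lam U *ᵥ u c) I = 0) ∧
      lam T *ᵥ ev (Hq d q) ≠ 0 ∧ (∀ I, I.card ≠ q → (lam T *ᵥ ev (Hq d q)) I = 0) ∧
      ∀ c, (∀ I, I.card ≠ q + 1 → u c I = 0) →
        ∃ a : Fin d → ℂ, u c = epsV a *ᵥ (lam T *ᵥ ev (Hq d q)) := by
  have hqd : q ≤ d := by
    have := Submodule.finrank_le (ann u)
    rw [Module.finrank_fintype_fun_eq_card, Fintype.card_fin] at this
    omega
  obtain ⟨T, U, hUT, hTU, hT, hU⟩ := exists_frame_ann h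
  exact ⟨T, U, hUT, hTU, hT, hU, beta_ne_zero hUT, fun I hI => beta_degree hqd hI,
    fun c hc => ⟨_, eq_epsV_beta hTU hqd (hU c) hc⟩⟩

/-- the annihilator of the decomposable form -/
theorem mem_ann_beta {T U : Matrix (Fin d) (Fin d) ℂ} (hUT : U * T = 1) (hTU : T * U = 1) {q : ℕ}
    {t : Fin d → ℂ} : epsV t *ᵥ (lam T *ᵥ ev (Hq d q)) = 0 ↔
      ∀ j : Fin d, q ≤ (j : ℕ) → (U *ᵥ t) j = 0 := by
  have h1 : t = T *ᵥ (U *ᵥ t) := by rw [Matrix.mulVec_mulVec, hTU, Matrix.one_mulVec]
  have h2 : epsV t *ᵥ (lam T *ᵥ ev (Hq d q)) = lam T *ᵥ (epsV (U *ᵥ t) *ᵥ ev (Hq d q)) := by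
    conv_lhs => rw [h1]
    rw [epsV_lam]
  have h3 : epsV t *ᵥ (lam T *ᵥ ev (Hq d q)) = 0 ↔ epsV (U *ᵥ t) *ᵥ ev (Hq d q) = 0 := by
    rw [h2]
    constructor
    · intro h
      have := congrArg (lam U *ᵥ ·) h
      simp only [Matrix.mulVec_zero] at this
      rwa [Matrix.mulVec_mulVec, ← lam_mul, hUT, lam_one, Matrix.one_mulVec] at this
    · intro h
      rw [h, Matrix.mulVec_zero]
  rw [h3]
  constructor
  · intro h j hj
    have hjH : j ∉ Hq d q := fun h' => by
      have := mem_Hq.1 h'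
      omega
    have h4 := congrFun h (insert j (Hq d q))
    rw [epsV_mulVec_apply, Finset.sum_eq_single j, Pi.zero_apply, eps_ev_of_notMem hjH,
      Pi.smul_apply, smul_eq_mul, ev, Pi.single_eq_same, mul_one] at h4
    · rcases mul_eq_zero.1 h4 with h5 | h5
      · have := sg_mul_self j (Hq d q)
        rw [h5, zero_mul] at this
        exact absurd this zero_ne_one
      · exact h5
    · intro l _ hl
      by_cases h5 : l ∈ Hq d q
      · rw [eps_ev_of_mem h5]; simp
      · rw [eps_ev_of_notMem h5, Pi.smul_apply, smul_eq_mul, ev, Pi.single_eq_of_ne, mul_zero,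
          zero_mul]
        intro h6
        have h7 : j ∈ insert l (Hq d q) := by rw [← h6]; exact Finset.mem_insert_self _ _
        rcases Finset.mem_insert.1 h7 with h8 | h8
        · exact hl h8.symm
        · exact hjH h8
    · intro h
      exact absurd (Finset.mem_univ _) h
  · intro h
    ext I
    rw [epsV_mulVec_apply]
    refine Finset.sum_eq_zero fun l _ => ?_
    by_cases h5 : l ∈ Hq d q
    · rw [eps_ev_of_mem h5]; simp
    · rw [h l (by by_contra h6; exact h5 (mem_Hq.2 (by omega))), mul_zero]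

end Vale.Agent.P301.H951
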