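import Vale.Agent.P301.H951.PTAnn2

/-! P301, H951 (N3-PT): `q = 3`, explicit decomposable forms -/

open scoped ComplexConjugate ComplexOrder Matrix
open Finset Vale.Agent.P299.IX Vale.Agent.P299.IX.Fock

set_option linter.all false

noncomputable section

namespace Vale.Agent.P301.H951

variable {d : ℕ} {A : Type*}

theorem Hq_three (hd : 3 ≤ d) : Hq d 3 = insert (Fin.castLE hd 0)
    (insert (Fin.castLE hd 1) (insert (Fin.castLE hd 2) ∅)) := by
  ext j
  simp only [mem_Hq, Finset.mem_insert, Finset.notMem_empty, or_false, Fin.ext_iff,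
    Fin.val_castLE]
  have h0 : ((0 : Fin 3) : ℕ) = 0 := rfl
  have h1 : ((1 : Fin 3) : ℕ) = 1 := rfl
  have h2 : ((2 : Fin 3) : ℕ) = 2 := rfl
  rw [h0, h1, h2]
  omega

/-- the decomposable form is the product of the first three columns -/
theorem lam_ev_three (hd : 3 ≤ d) (T : Matrix (Fin d) (Fin d) ℂ) :
    lam T *ᵥ ev (Hq d 3) = epsV (fun i => T i (Fin.castLE hd 0)) *ᵥ
      (epsV (fun i => T i (Fin.castLE hd 1)) *ᵥ
        (epsV (fun i => T i (Fin.castLE hd 2)) *ᵥ ev ∅)) := by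
  rw [Hq_three hd, lam_ev_insert, lam_ev_insert, lam_ev_insert, lam_ev_empty]
  · intro j hj
    exact absurd hj (Finset.notMem_empty j)
  · intro j hj
    simp only [Finset.mem_insert, Finset.notMem_empty, or_false] at hj
    subst hj
    rw [Fin.lt_def, Fin.val_castLE, Fin.val_castLE]
    decide
  · intro j hj
    simp only [Finset.mem_insert, Finset.notMem_empty, or_false] at hj
    rcases hj with rfl | rfl
    · rw [Fin.lt_def, Fin.val_castLE, Fin.val_castLE]; decide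
    · rw [Fin.lt_def, Fin.val_castLE, Fin.val_castLE]; decide

/-- forms of degree 4 annihilated by a space of covectors of dimension `≥ 3` are multiples of a
common decomposable form `t_0 ∧ t_1 ∧ t_2 ≠ 0` -/
theorem exists_dec3 (hd : 3 ≤ d) {u : A → FI d → ℂ} (h : 3 ≤ Module.finrank ℂ (ann u)) :
    ∃ t : Fin 3 → Fin d → ℂ, (∀ j, t j ∈ ann u) ∧
      epsV (t 0) *ᵥ (epsV (t 1) *ᵥ (epsV (t 2) *ᵥ ev ∅)) ≠ 0 ∧
      ∀ c, (∀ I, I.card ≠ 4 → u c I = 0) → ∃ a : Fin d → ℂ,
        u c = epsV a *ᵥ (epsV (t 0) *ᵥ (epsV (t 1) *ᵥ (epsV (t 2) *ᵥ ev ∅))) := by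
  obtain ⟨T, U, hUT, hTU, hT, -, h0, -, h1⟩ := exists_beta (q := 3) h
  rw [lam_ev_three hd T] at h0
  refine ⟨fun j i => T i (Fin.castLE hd j), fun j => hT _ j.2, h0, fun c hc => ?_⟩
  obtain ⟨a, ha⟩ := h1 c hc
  rw [lam_ev_three hd T] at ha
  exact ⟨a, ha⟩

end Vale.Agent.P301.H951
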