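import Vale.Agent.P301.H951.PT
import Vale.Agent.P301.H794.Assembly

/-! P301, H951 (N3-PT): simultaneous limits for several weights and degrees. -/

open Filter Metric Set MeasureTheory Topology
open scoped ENNReal ComplexOrder Matrix ComplexConjugate Manifold ContDiff

set_option linter.all false

noncomputable section

namespace Vale.Agent.P301.H951

open Vale.Agent.P272.K Vale.Agent.P299.IX Vale.Agent.P299.IX.Fock Vale.Agent.P301.H85
open Vale.Agent.P301.H599 Vale.Agent.P301.H862 Vale.Agent.P299.H954 Vale.Agent.P301.H794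

variable {d : ℕ} {X : Type} [TopologicalSpace X] [ChartedSpace (Cm d) X]
  {ι : Type} {L : LineBundle d X ι} [IsManifold 𝓘(ℂ, Cm d) ω X] [CompactSpace X] [T2Space X]

/-- `u` is a holomorphic `L^q`-valued `p`-form which is the limit of approximate kernel elements
`g N` for the metrics `q (ρ + φ N)` -/
structure IsLim (l : Filter ℕ) (L : LineBundle d X ι) (w : Fm d X) (ρ : ι → X → ℝ)
    (φ : ℕ → X → ℝ) (ε : ℕ → ℝ) (q p : ℕ) (g : ℕ → H862.Fam d X ι) (u : H862.Fam d X ι) :
    Prop where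
  sec : ∀ N, H862.IsSec (powL L q) (g N)
  deg : ∀ N i e x, At e x → x ∈ L.U i → ∀ I : FI d, I.card ≠ p → g N i e (e x) I = 0
  bound : ∀ N, (H862.ip (powL L q) (fun i x => (q : ℝ) * ρ i x + (q : ℝ) * φ N x) w
    (g N) (g N)).re ≤ 2
  ker : ∀ N, (H862.ip (powL L q) (fun i x => (q : ℝ) * ρ i x + (q : ℝ) * φ N x) w
      (DX (fun i x => (q : ℝ) * ρ i x + (q : ℝ) * φ N x) (g N))
      (DX (fun i x => (q : ℝ) * ρ i x + (q : ℝ) * φ N x) (g N))).re +
    (H862.ip (powL L q) (fun i x => (q : ℝ) * ρ i x + (q : ℝ) * φ N x) w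
      (dX w (g N)) (dX w (g N))).re ≤ ε N
  hol : H897.IsHol (powL L q) u
  homog : H724.Homog L p u
  conv : ∀ e ∈ atlas (Cm d) X, ∀ i, ∀ S : Set (Cm d), IsCompact S →
    S ⊆ H897.Dom (powL L q) i e → H897.LConv l (fun N => g N i e) (u i e) S
  strong : Tendsto (fun N => (H862.ip (powL L q)
    (fun i x => (q : ℝ) * ρ i x + (q : ℝ) * φ N x) w
    (fun i e z => g N i e z - u i e z) (fun i e z => g N i e z - u i e z)).re) l (𝓝 0)

/-- the curvature condition for the `q`-th power -/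
theorem curv_pow {F : X → X} {w : Fm d X} {ρ : ι → X → ℝ} (hρ : IsMetric L ρ) {n : ℕ}
    {δ C C₁ c₀ K ε : ℝ} {φ : X → ℝ} {τ : Fm d X} (hA : CYApprox F L ρ w n 1 δ C C₁ c₀ K ε φ τ)
    {q : ℕ} (hq : 1 ≤ q) : ∀ i (e : Chart d X) x, At e x → x ∈ (powL L q).U i →
      (cHess (fun z => (q : ℝ) * ρ i (e.symm z) + (q : ℝ) * φ (e.symm z)) (e x) +
        ((q * C * ε : ℝ) : ℂ) • w e (e x) - ((q * δ : ℝ) : ℂ) • τ e (e x)).PosSemidef := by
  intro i e x hx hi
  have hq0 : (0 : ℝ) < q := by exact_mod_cast hq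
  have h1 := hA.curv i e x hx hi
  have s1 : ContDiffAt ℝ 2 (fun z => ρ i (e.symm z)) (e x) :=
    (hρ.smooth i e x hx hi).of_le (by norm_cast)
  have s2 : ContDiffAt ℝ 2 (fun z => φ (e.symm z)) (e x) :=
    (hA.smooth e x hx).of_le (by norm_cast)
  have h2 : cHess (fun z => (q : ℝ) * ρ i (e.symm z) + (q : ℝ) * φ (e.symm z)) (e x) =
      ((q : ℝ) : ℂ) • cHess (fun z => ρ i (e.symm z) + φ (e.symm z)) (e x) := by
    rw [← C2.cHess_const_mul (q : ℝ) (s1.add s2)]
    congr 1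
    funext z; ring
  have h3 : pull (F^[0]) τ e (e x) = τ e (e x) :=
    pull_id hA.kahler.toIsHermitian.isForm e x hx
  rw [Finset.sum_range_one, h3] at h1
  have h4 := h1.smul (Complex.zero_le_real.2 hq0.le)
  have h5 : ((q : ℝ) : ℂ) • (cHess (fun z => ρ i (e.symm z) + φ (e.symm z)) (e x) +
      ((C * ε : ℝ) : ℂ) • w e (e x) - ((δ / (1 : ℕ) : ℝ) : ℂ) • τ e (e x)) =
      cHess (fun z => (q : ℝ) * ρ i (e.symm z) + (q : ℝ) * φ (e.symm z)) (e x) +
        ((q * C * ε : ℝ) : ℂ) • w e (e x) - ((q * δ : ℝ) : ℂ) • τ e (e x) := by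
    rw [h2]
    push_cast
    module
  rw [h5] at h4
  exact h4

section

variable {F : X → X} {w : Fm d X} {ρ : ι → X → ℝ} {ε : ℕ → ℝ} {φ : ℕ → X → ℝ} {τ : ℕ → Fm d X}
  {n : ℕ} {δ C C₁ c₀ K P : ℝ}

theorem exp_pow {q : ℕ} (hqP : (2 * d + 1) * (q : ℝ) ≤ P)
    (hexp : ∀ e ∈ atlas (Cm d) X, ∀ S : Set (Cm d), IsCompact S → S ⊆ e.target →
      ∃ B : ℝ≥0∞, B ≠ ⊤ ∧ ∀ N : ℕ,
        ∫⁻ z in S, ENNReal.ofReal (Real.exp (-(P * φ N (e.symm z)))) ≤ B) :
    ∀ e ∈ atlas (Cm d) X, ∀ S : Set (Cm d), IsCompact S → S ⊆ e.target →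
      ∃ B : ℝ≥0∞, B ≠ ⊤ ∧ ∀ N : ℕ,
        ∫⁻ z in S, ENNReal.ofReal (Real.exp (-((2 * d + 1) * ((q : ℝ) * φ N (e.symm z))))) ≤
          B := by
  intro e he S hS hSe
  obtain ⟨B, hB, hBN⟩ := hexp e he S hS hSe
  refine ⟨volume S + B, by finiteness [hS.measure_lt_top (μ := volume)], fun N => ?_⟩
  calc ∫⁻ z in S, ENNReal.ofReal (Real.exp (-((2 * d + 1) * ((q : ℝ) * φ N (e.symm z)))))
      ≤ ∫⁻ z in S, (1 + ENNReal.ofReal (Real.exp (-(P * φ N (e.symm z))))) := by
        refine lintegral_mono fun z => ?_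
        rw [← ENNReal.ofReal_one, ← ENNReal.ofReal_add zero_le_one (Real.exp_pos _).le]
        apply ENNReal.ofReal_le_ofReal
        rw [← mul_assoc]
        exact exp_le_one_add (by positivity) hqP
    _ = volume S + ∫⁻ z in S, ENNReal.ofReal (Real.exp (-(P * φ N (e.symm z)))) := by
        rw [lintegral_add_left measurable_const]
        simp
    _ ≤ _ := by gcongr; exact hBN N

/-- **existence of limits** for one sequence of approximate kernel elements -/
theorem exists_isLim (hw : IsKahler w) (hρ : IsMetric L ρ)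
    (hε0 : ∀ N, 0 < ε N) (hεt : Tendsto ε atTop (𝓝 0)) (hδ : 0 < δ) (hC : 0 ≤ C)
    (hA : ∀ N, CYApprox F L ρ w n 1 δ C C₁ c₀ K (ε N) (φ N) (τ N))
    (hexp : ∀ e ∈ atlas (Cm d) X, ∀ S : Set (Cm d), IsCompact S → S ⊆ e.target →
      ∃ B : ℝ≥0∞, B ≠ ⊤ ∧ ∀ N : ℕ,
        ∫⁻ z in S, ENNReal.ofReal (Real.exp (-(P * φ N (e.symm z)))) ≤ B)
    (l : Ultrafilter ℕ) (hl : (l : Filter ℕ) ≤ atTop)
    {q : ℕ} (hq : 1 ≤ q) (hqP : (2 * d + 1) * (q : ℝ) ≤ P) {p : ℕ} {g : ℕ → H862.Fam d X ι}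
    (g1 : ∀ N, H862.IsSec (powL L q) (g N))
    (g2 : ∀ N i e x, At e x → x ∈ L.U i → ∀ I : FI d, I.card ≠ p → g N i e (e x) I = 0)
    (g3 : ∀ N, (H862.ip (powL L q) (fun i x => (q : ℝ) * ρ i x + (q : ℝ) * φ N x) w
      (g N) (g N)).re ≤ 2)
    (g4 : ∀ N, (H862.ip (powL L q) (fun i x => (q : ℝ) * ρ i x + (q : ℝ) * φ N x) w
      (DX (fun i x => (q : ℝ) * ρ i x + (q : ℝ) * φ N x) (g N))
      (DX (fun i x => (q : ℝ) * ρ i x + (q : ℝ) * φ N x) (g N))).re +
    (H862.ip (powL L q) (fun i x => (q : ℝ) * ρ i x + (q : ℝ) * φ N x) w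
      (dX w (g N)) (dX w (g N))).re ≤ ε N) :
    ∃ u : H862.Fam d X ι, IsLim l L w ρ φ ε q p g u := by
  have hq0 : (0 : ℝ) < q := by exact_mod_cast hq
  have hρq := powL_metric hρ q
  have hv : ∀ N, Smooth (d := d) (fun x => (q : ℝ) * φ N x) := fun N =>
    Smooth.const_mul _ (hA N).smooth
  have hρN : ∀ N, IsMetric (powL L q) (fun i x => (q : ℝ) * ρ i x + (q : ℝ) * φ N x) :=
    fun N => isMetric_add hρq (hv N)
  have hεl := hεt.mono_left hl
  have hcurv' : ∀ N, ∀ i (e : Chart d X) x, At e x → x ∈ (powL L q).U i →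
      (cHess (fun z => (q : ℝ) * ρ i (e.symm z) + (q : ℝ) * φ N (e.symm z)) (e x) +
        ((q * C * ε N : ℝ) : ℂ) • w e (e x)).PosSemidef := by
    intro N i e x hx hi
    have h1 := curv_pow hρ (hA N) hq i e x hx hi
    have h2 : (((q * δ : ℝ) : ℂ) • τ N e (e x)).PosSemidef :=
      ((hA N).kahler.posDef e x hx).posSemidef.smul (Complex.zero_le_real.2 (by positivity))
    have h3 := h1.add h2
    rwa [sub_add_cancel] at h3
  have hgrad : Tendsto (fun N => (intC (powL L q)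
      (gradX (fun i x => (q : ℝ) * ρ i x + (q : ℝ) * φ N x) w (g N) (g N))).re) l (𝓝 0) := by
    have h1 : Tendsto (fun N => ε N + q * C * ε N * d * 2) l (𝓝 (0 + q * C * 0 * d * 2)) :=
      hεl.add (((hεl.const_mul _).mul_const _).mul_const _)
    have h2 : (0 : ℝ) + q * C * 0 * d * 2 = 0 := by ring
    rw [h2] at h1
    refine tendsto_of_tendsto_of_tendsto_of_le_of_le tendsto_const_nhds h1 (fun N => ?_)
      fun N => ?_
    · exact intC_re_nonneg fun i e x hx _ => gradX_nonneg hw _ _ _ hx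
    · have haε : 0 ≤ q * C * ε N := mul_nonneg (by positivity) (hε0 N).le
      have h3 := intC_grad_le hw (hρN N) haε (hcurv' N) (g1 N)
      have h4 : q * C * ε N * d * (H862.ip (powL L q)
          (fun i x => (q : ℝ) * ρ i x + (q : ℝ) * φ N x) w (g N) (g N)).re ≤
          q * C * ε N * d * 2 := mul_le_mul_of_nonneg_left (g3 N) (by positivity)
      have h5 := g4 N
      show (intC (powL L q)
        (gradX (fun i x => (q : ℝ) * ρ i x + (q : ℝ) * φ N x) w (g N) (g N))).re ≤ _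
      linarith
  obtain ⟨u, hu, hK1, hI, hlast⟩ := H897.lim_main hw hρq l hv (C₁ := q * C₁)
    (fun N x => mul_le_mul_of_nonneg_left ((hA N).upper x) hq0.le) (g := g) g1 (M := 2) g3 hgrad
  exact ⟨u, g1, g2, g3, g4, hu, fun i e x hx hi I hI' =>
    hI I (fun N i e x hx hi => g2 N i e x hx hi I hI') i e x hx hi, hK1,
    hlast (exp_pow hqP hexp)⟩

/-- a limit in the vocabulary of `AKer` -/
theorem IsLim.aker (hρ : IsMetric L ρ) (hε0 : ∀ N, 0 < ε N) (hδ : 0 < δ) (hC : 0 ≤ C)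
    (hA : ∀ N, CYApprox F L ρ w n 1 δ C C₁ c₀ K (ε N) (φ N) (τ N))
    {l : Filter ℕ} {q : ℕ} (hq : 1 ≤ q) {p : ℕ} {g : ℕ → H862.Fam d X ι} {u : H862.Fam d X ι}
    (h : IsLim l L w ρ φ ε q p g u) :
    AKer l w τ ε (powL L q) (fun i x => (q : ℝ) * ρ i x) (fun N x => (q : ℝ) * φ N x) g u := by
  have hq0 : (0 : ℝ) < q := by exact_mod_cast hq
  refine ⟨powL_metric hρ q, Eventually.of_forall fun N => Smooth.const_mul _ (hA N).smooth,
    ⟨q * C₁, Eventually.of_forall fun N x =>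
      mul_le_mul_of_nonneg_left ((hA N).upper x) hq0.le⟩,
    ⟨q * C, q * δ, by positivity, by positivity, Eventually.of_forall fun N =>
      curv_pow hρ (hA N) hq⟩, Eventually.of_forall h.sec, ⟨2, Eventually.of_forall h.bound⟩,
    ⟨1, Eventually.of_forall fun N => ?_⟩, ?_⟩
  · rw [one_mul]
    exact h.ker N
  · intro i e x hx hi
    obtain ⟨R, hR, hRd⟩ := Metric.nhds_basis_closedBall.mem_iff.1
      ((H862.isOpen_dom (powL L q) i e).mem_nhds (H862.mem_dom hx hi))
    refine ⟨R, hR, hRd, ?_, ?_⟩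
    · intro I z hz
      have h1 := H862.At.of_dom hx.1 (hRd hz)
      have := (h.hol.holo i e _ h1.1 h1.2.1 I).continuousAt
      rw [h1.2.2] at this
      exact this.continuousWithinAt
    · intro I
      exact (h.conv e hx.1 i _ (isCompact_closedBall (e x) R) hRd).one
        (isCompact_closedBall _ _).measure_ne_top subset_rfl I

/-- **Simultaneous limits.** For finitely (or infinitely) many weights `q c` and degrees `p c`. -/
theorem cy_limits (hw : IsKahler w) (hρ : IsMetric L ρ)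
    (hε0 : ∀ N, 0 < ε N) (hε1 : ∀ N, ε N ≤ 1) (hεt : Tendsto ε atTop (𝓝 0))
    (hn : n < d) (hnd : d - n = n) (hδ : 0 < δ) (hC : 0 ≤ C) (hc₀ : 0 < c₀)
    (hA : ∀ N, CYApprox F L ρ w n 1 δ C C₁ c₀ K (ε N) (φ N) (τ N))
    (hexp : ∀ e ∈ atlas (Cm d) X, ∀ S : Set (Cm d), IsCompact S → S ⊆ e.target →
      ∃ B : ℝ≥0∞, B ≠ ⊤ ∧ ∀ N : ℕ,
        ∫⁻ z in S, ENNReal.ofReal (Real.exp (-(P * φ N (e.symm z)))) ≤ B)
    (l : Ultrafilter ℕ) (hl : (l : Filter ℕ) ≤ atTop)
    {κ : Type*} {q p r : κ → ℕ} (hq : ∀ c, 1 ≤ q c) (hqP : ∀ c, (2 * d + 1) * (q c : ℝ) ≤ P)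
    (hG : ∀ c N, Good L w (fun i x => ρ i x + φ N x) (q c) (p c) (r c) (ε N)) :
    ∃ (g : ∀ c, Fin (r c) → ℕ → H862.Fam d X ι) (u : ∀ c, Fin (r c) → H862.Fam d X ι),
      (∀ c a, IsLim l L w ρ φ ε (q c) (p c) (g c a) (u c a)) ∧
      (∀ c a, H724.IsSec L H897.LamF (q c) (u c a)) ∧
      (∀ c, H724.LinInd L (u c)) ∧
      (∀ c {r' : ℕ} (f : Fin r' → Fin (r c)), cnt d n (p c) < r' →
        ∀ i (e : Chart d X) x, At e x → x ∈ L.U i →
          H724.wedge (fun a => u c (f a)) i e (e x) = 0) ∧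
      ∀ (e : Chart d X) x, At e x → n ≤ Module.finrank ℂ
        (ann fun y : {y : (Σ c, Fin (r c)) × ι // x ∈ L.U y.2} =>
          u y.1.1.1 y.1.1.2 y.1.2 e (e x)) := by
  choose g g1 g2 g3 g4 using hG
  have hwt : ∀ c N, (fun i x => (q c : ℕ) * (ρ i x + φ N x)) =
      fun i x => (q c : ℝ) * ρ i x + (q c : ℝ) * φ N x := fun c N => by
    funext i x; ring
  simp only [hwt] at g3 g4
  have hgn : ∀ c N a, (H862.ip (powL L (q c))
      (fun i x => (q c : ℝ) * ρ i x + (q c : ℝ) * φ N x) w (g c N a) (g c N a)).re ≤ 2 := by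
    intro c N a
    have h1 := g3 c N a a
    rw [if_pos rfl] at h1
    have h2 := (Complex.abs_re_le_norm _).trans h1
    rw [Complex.sub_re, Complex.one_re, abs_le] at h2
    linarith [hε1 N]
  have key := fun c a => exists_isLim hw hρ hε0 hεt hδ hC hA hexp l hl (hq c) (hqP c)
    (p := p c) (g := fun N => g c N a) (fun N => g1 c N a) (fun N => g2 c N a)
    (fun N => hgn c N a) (fun N => g4 c N a)
  choose u hu using key
  have hρN : ∀ c N, IsMetric (powL L (q c))
      (fun i x => (q c : ℝ) * ρ i x + (q c : ℝ) * φ N x) :=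
    fun c N => isMetric_add (powL_metric hρ (q c)) (Smooth.const_mul _ (hA N).smooth)
  have hεl := hεt.mono_left hl
  refine ⟨fun c a N => g c N a, u, hu, fun c a => isSec_of_isHol (hu c a).hol, ?_, ?_, ?_⟩
  · intro c
    have h1 : H724.LinInd (powL L (q c)) (u c) := by
      refine linInd_of_lim (l := (l : Filter ℕ)) hw (Eventually.of_forall (hρN c))
        (Eventually.of_forall fun N a => g1 c N a) (fun a => (hu c a).hol.isSec)
        (fun a => (hu c a).strong) ?_
      intro a b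
      rw [tendsto_iff_norm_sub_tendsto_zero]
      exact squeeze_zero (fun _ => norm_nonneg _) (fun N => g3 c N a b) hεl
    exact h1
  · intro c r' f hr' i e x hx hi
    have h1 : ∀ J : Fin r' → FI d,
        (Matrix.of fun a j => u c (f a) i e (e x) (J j)).det = 0 := by
      intro J
      refine minors_vanish (L := powL L (q c)) (l := (l : Filter ℕ)) hn le_rfl hw
        (powL_metric hρ (q c))
        (v := fun N x => (q c : ℝ) * φ N x)
        (Eventually.of_forall fun N => Smooth.const_mul _ (hA N).smooth) (C1 := q c * C₁)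
        (Eventually.of_forall fun N x =>
          mul_le_mul_of_nonneg_left ((hA N).upper x) (Nat.cast_nonneg _))
        (Eventually.of_forall fun N => (hA N).kahler) (Eventually.of_forall hε0) hεl
        (a := q c * C) (b := q c * δ) (by positivity)
        (mul_pos (by exact_mod_cast hq c) hδ)
        (Eventually.of_forall fun N => curv_pow hρ (hA N) (hq c)) hc₀
        (Eventually.of_forall fun N e x hx => (hA N).det e x hx)
        (Eventually.of_forall fun N => (hA N).det_add) (p := p c) (r := r')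
        (by rw [hnd]; exact hr')
        (g := fun N a => g c N (f a)) (G := fun a => u c (f a))
        (Eventually.of_forall fun N a => g1 c N (f a))
        (Eventually.of_forall fun N a => g2 c N (f a)) (C2 := 2)
        (Eventually.of_forall fun N a => hgn c N (f a))
        (Eventually.of_forall fun N a => (g4 c N (f a)).trans (by
          have := hε0 N
          linarith)) ?_ i hx hi J
      intro i e x hx hi
      obtain ⟨R, hR, hRd⟩ := Metric.nhds_basis_closedBall.mem_iff.1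
        ((H862.isOpen_dom (powL L (q c)) i e).mem_nhds (H862.mem_dom hx hi))
      refine ⟨R, hR, hRd, ?_, ?_⟩
      · intro a I z hz
        have h1 := H862.At.of_dom hx.1 (hRd hz)
        have := ((hu c (f a)).hol.holo i e _ h1.1 h1.2.1 I).continuousAt
        rw [h1.2.2] at this
        exact this.continuousWithinAt
      · intro a I
        exact ((hu c (f a)).conv e hx.1 i _ (isCompact_closedBall (e x) R) hRd).one
          (isCompact_closedBall _ _).measure_ne_top subset_rfl I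
    funext J
    have h2 := h1 J
    rw [← Matrix.det_transpose] at h2
    exact h2
  · intro e x hx
    have h1 := grass (l := (l : Filter ℕ)) hn le_rfl hw
      (Eventually.of_forall fun N => (hA N).kahler)
      (Eventually.of_forall hε0) hεl hc₀
      (Eventually.of_forall fun N e x hx => (hA N).det e x hx)
      (Eventually.of_forall fun N => (hA N).det_add)
      (κ := Σ c, Fin (r c)) (L := fun c => powL L (q c.1))
      (ρ₀ := fun c i x => (q c.1 : ℝ) * ρ i x) (v := fun c N x => (q c.1 : ℝ) * φ N x)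
      (g := fun c N => g c.1 N c.2) (G := fun c => u c.1 c.2)
      (fun c => (hu c.1 c.2).aker hρ hε0 hδ hC hA (hq c.1)) hx
    rw [hnd] at h1
    exact h1

end

end Vale.Agent.P301.H951
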