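import Vale.Agent.P301.H951.PTAnn

/-! P301, H951 (N3-PT): the annihilator of many forms of degree `q + 1` -/

open scoped ComplexConjugate ComplexOrder Matrix
open Finset Vale.Agent.P299.IX Vale.Agent.P299.IX.Fock

set_option linter.all false

noncomputable section

namespace Vale.Agent.P301.H951

variable {d : ℕ} {A : Type*}

theorem epsV_ev_insert (y : Fin d → ℂ) {K : FI d} {j : Fin d} (hj : j ∉ K) :
    (epsV y *ᵥ ev K) (insert j K) = sg j K * y j := by
  rw [epsV_mulVec_apply, Finset.sum_eq_single j, eps_ev_of_notMem hj,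
    Pi.smul_apply, smul_eq_mul, ev, Pi.single_eq_same, mul_one]
  · intro l _ hl
    by_cases h5 : l ∈ K
    · rw [eps_ev_of_mem h5]; simp
    · rw [eps_ev_of_notMem h5, Pi.smul_apply, smul_eq_mul, ev, Pi.single_eq_of_ne, mul_zero,
        zero_mul]
      intro h6
      have h7 : j ∈ insert l K := by rw [← h6]; exact Finset.mem_insert_self _ _
      rcases Finset.mem_insert.1 h7 with h8 | h8
      · exact hl h8.symm
      · exact hj h8
  · intro h
    exact absurd (Finset.mem_univ _) h

theorem sg_ne_zero (l : Fin d) (I : FI d) : sg l I ≠ 0 := by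
  intro h3
  have := sg_mul_self l I
  rw [h3, zero_mul] at this
  exact zero_ne_one this

/-- a covector annihilating all products `T_l ∧ β` annihilates `β` -/
theorem ann_of_prod {T U : Matrix (Fin d) (Fin d) ℂ} (hUT : U * T = 1) (hTU : T * U = 1) {q : ℕ}
    (hq : q + 2 ≤ d) {t : Fin d → ℂ}
    (ht : ∀ l, l ∉ Hq d q → epsV t *ᵥ (lam T *ᵥ (eps l *ᵥ ev (Hq d q))) = 0) :
    epsV t *ᵥ (lam T *ᵥ ev (Hq d q)) = 0 := by
  rw [mem_ann_beta hUT hTU]
  intro j hj
  have hjH : j ∉ Hq d q := fun h' => by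
    have := mem_Hq.1 h'
    omega
  obtain ⟨l, hl, hlj⟩ : ∃ l : Fin d, l ∉ Hq d q ∧ l ≠ j := by
    by_cases h : (j : ℕ) = q
    · refine ⟨⟨q + 1, by omega⟩, fun h' => ?_, fun h' => ?_⟩
      · have := mem_Hq.1 h'
        simp at this
      · rw [← h'] at h
        simp at h
    · refine ⟨⟨q, by omega⟩, fun h' => ?_, fun h' => ?_⟩
      · have := mem_Hq.1 h'
        simp at this
      · rw [← h'] at h
        exact h rfl
  have h1 : t = T *ᵥ (U *ᵥ t) := by rw [Matrix.mulVec_mulVec, hTU, Matrix.one_mulVec]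
  have h2 := ht l hl
  rw [h1, epsV_lam] at h2
  have h3 := congrArg (lam U *ᵥ ·) h2
  simp only [Matrix.mulVec_zero] at h3
  rw [Matrix.mulVec_mulVec, ← lam_mul, hUT, lam_one, Matrix.one_mulVec, eps_ev_of_notMem hl,
    Matrix.mulVec_smul] at h3
  have h4 := congrFun h3 (insert j (insert l (Hq d q)))
  have hj' : j ∉ insert l (Hq d q) := by
    intro h
    rcases Finset.mem_insert.1 h with h8 | h8
    · exact hlj h8.symm
    · exact hjH h8
  rw [Pi.smul_apply, epsV_ev_insert _ hj', Pi.zero_apply, smul_eq_mul] at h4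
  exact (mul_eq_zero.1 ((mul_eq_zero.1 h4).resolve_left (sg_ne_zero _ _))).resolve_left
    (sg_ne_zero _ _)

/-- **The annihilator of many forms of degree `q + 1`** is the annihilator of the decomposable
factor. -/
theorem mem_ann_iff {u : A → FI d → ℂ} {T U : Matrix (Fin d) (Fin d) ℂ} (hUT : U * T = 1)
    (hTU : T * U = 1) {q : ℕ} (hq : q + 2 ≤ d)
    (hx : ∀ c I, ¬ Hq d q ⊆ I → (lam U *ᵥ u c) I = 0) (hx' : ∀ c I, I.card ≠ q + 1 → u c I = 0)
    {f : Fin (d - q) → A} (hli : LinearIndependent ℂ (fun i => u (f i))) {t : Fin d → ℂ} :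
    t ∈ ann u ↔ epsV t *ᵥ (lam T *ᵥ ev (Hq d q)) = 0 := by
  have hqd : q ≤ d := by omega
  constructor
  · intro ht
    set v : {l : Fin d // l ∉ Hq d q} → FI d → ℂ := fun l =>
      lam T *ᵥ (eps (l : Fin d) *ᵥ ev (Hq d q)) with hv
    set α : Fin (d - q) → {l : Fin d // l ∉ Hq d q} → ℂ := fun i l =>
      coef q (lam U *ᵥ u (f i)) l with hα
    have h1 : ∀ i, u (f i) = Fintype.linearCombination ℂ v (α i) := by
      intro i
      rw [Fintype.linearCombination_apply]
      have h2 := eq_epsV_beta hTU hqd (hx (f i)) (hx' (f i))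
      rw [epsV_lam] at h2
      rw [h2]
      unfold epsV
      rw [Matrix.sum_mulVec, Matrix.mulVec_sum]
      have h3 : ∀ l : Fin d, l ∈ Hq d q →
          lam T *ᵥ ((coef q (lam U *ᵥ u (f i)) l • eps l) *ᵥ ev (Hq d q)) = 0 := by
        intro l hl
        rw [coef, if_pos hl, zero_smul, Matrix.zero_mulVec, Matrix.mulVec_zero]
      rw [← Finset.sum_filter_add_sum_filter_not univ (fun l => l ∈ Hq d q),
        Finset.sum_eq_zero (fun l hl => h3 l (Finset.mem_filter.1 hl).2), zero_add]
      rw [Finset.sum_subtype (p := fun l => l ∉ Hq d q) (univ.filter fun l => ¬ l ∈ Hq d q)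
        (fun x => by simp)
        (fun l => lam T *ᵥ ((coef q (lam U *ᵥ u (f i)) l • eps l) *ᵥ ev (Hq d q)))]
      refine Finset.sum_congr rfl fun l _ => ?_
      rw [Matrix.smul_mulVec, Matrix.mulVec_smul]
    have h2 : LinearIndependent ℂ α := by
      refine LinearIndependent.of_comp (Fintype.linearCombination ℂ v) ?_
      convert hli using 1
      funext i
      exact (h1 i).symm
    have hcard : Fintype.card {l : Fin d // l ∉ Hq d q} = d - q := by
      rw [Fintype.card_subtype_compl, Fintype.card_fin, Fintype.card_coe, card_Hq hqd]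
    have h3 : Submodule.span ℂ (Set.range α) = ⊤ := by
      refine h2.span_eq_top_of_card_eq_finrank' ?_
      rw [Module.finrank_fintype_fun_eq_card, hcard, Fintype.card_fin]
    let Ψ : ({l : Fin d // l ∉ Hq d q} → ℂ) →ₗ[ℂ] (FI d → ℂ) :=
      (Matrix.mulVecLin (epsV t)).comp (Fintype.linearCombination ℂ v)
    have h4 : LinearMap.ker Ψ = ⊤ := by
      rw [eq_top_iff, ← h3, Submodule.span_le]
      rintro _ ⟨i, rfl⟩
      show epsV t *ᵥ (Fintype.linearCombination ℂ v (α i)) = 0
      rw [← h1]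
      exact ht (f i)
    refine ann_of_prod hUT hTU hq fun l hl => ?_
    have h5 : Pi.single (⟨l, hl⟩ : {l : Fin d // l ∉ Hq d q}) (1 : ℂ) ∈ LinearMap.ker Ψ := by
      rw [h4]; trivial
    have h6 : epsV t *ᵥ (Fintype.linearCombination ℂ v
      (Pi.single (⟨l, hl⟩ : {l : Fin d // l ∉ Hq d q}) (1 : ℂ))) = 0 := h5
    rwa [Fintype.linearCombination_apply_single, one_smul] at h6
  · intro ht c
    rw [eq_epsV_beta hTU hqd (hx c) (hx' c), epsV_epsV_mulVec, ht]
    simp

/-- exact dimension of the annihilator -/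
theorem finrank_ann_eq {u : A → FI d → ℂ} {q : ℕ} (h : q ≤ Module.finrank ℂ (ann u))
    (hq : q + 2 ≤ d) (hx' : ∀ c I, I.card ≠ q + 1 → u c I = 0)
    {f : Fin (d - q) → A} (hli : LinearIndependent ℂ (fun i => u (f i))) :
    Module.finrank ℂ (ann u) = q := by
  obtain ⟨T, U, hUT, hTU, hT, hU⟩ := exists_frame_ann h
  refine le_antisymm ?_ h
  let φ : (Fin q → ℂ) →ₗ[ℂ] (Fin d → ℂ) :=
    Fintype.linearCombination ℂ fun j i => T i (Fin.castLE (by omega) j)
  have h1 : ann u ≤ LinearMap.range φ := by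
    intro t ht
    rw [mem_ann_iff hUT hTU hq hU hx' hli, mem_ann_beta hUT hTU] at ht
    refine ⟨fun j => (U *ᵥ t) (Fin.castLE (by omega) j), ?_⟩
    have h2 : t = T *ᵥ (U *ᵥ t) := by rw [Matrix.mulVec_mulVec, hTU, Matrix.one_mulVec]
    conv_rhs => rw [h2, mulVec_eq_sum_smul]
    rw [Fintype.linearCombination_apply]
    rw [← Finset.sum_filter_add_sum_filter_not univ (fun l : Fin d => (l : ℕ) < q),
      Finset.sum_eq_zero (s := univ.filter fun l : Fin d => ¬ (l : ℕ) < q) (fun l hl => by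
        rw [ht l (not_lt.1 (Finset.mem_filter.1 hl).2), zero_smul]), add_zero]
    have h3 : (univ.filter fun l : Fin d => (l : ℕ) < q) =
        (univ : Finset (Fin q)).map (Fin.castLEEmb (by omega)) := by
      ext j
      simp only [Finset.mem_filter, Finset.mem_map, Finset.mem_univ, true_and]
      constructor
      · intro h
        exact ⟨⟨j, h⟩, by ext; rfl⟩
      · rintro ⟨i, rfl⟩
        exact i.2
    rw [h3, Finset.sum_map]
    rfl
  refine (Submodule.finrank_mono h1).trans ?_
  refine (LinearMap.finrank_range_le φ).trans ?_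
  rw [Module.finrank_fintype_fun_eq_card, Fintype.card_fin]

end Vale.Agent.P301.H951
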