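import Vale.Agent.P301.H85.PW

/-! P301, H951 (N3-PT): the rank of `t ↦ t ∧ u`, pointwise estimate -/

open scoped ComplexConjugate ComplexOrder Matrix
open Finset Vale.Agent.P299.IX Vale.Agent.P299.IX.Fock Vale.Agent.P301.H85

set_option linter.all false

noncomputable section

namespace Vale.Agent.P301.H951

variable {d : ℕ}

/-- a frame in which the last `d - k` eigenvalues are bounded from below -/
theorem exists_frame_sorted {w τ : Matrix (Fin d) (Fin d) ℂ} (hw : w.PosDef) (hτ : τ.PosSemidef)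
    {k : ℕ} (hk : k < d) : ∃ (T U : Matrix (Fin d) (Fin d) ℂ) (η : Fin d → ℝ) (H : Finset (Fin d))
      (μ : ℝ), (∀ i, 0 ≤ η i) ∧ U * T = 1 ∧ T * U = 1 ∧ w = T * Tᴴ ∧
      τ = T * Matrix.diagonal (fun k => ((η k : ℝ) : ℂ)) * Tᴴ ∧ H.card = d - k ∧ 0 ≤ μ ∧
      (∀ j ∈ H, μ ≤ η j) ∧ (τ.det.re / (w + τ).det.re) ^ (1 / ((k : ℝ) + 1)) ≤ μ := by
  obtain ⟨T, U, η, hη, hUT, hTU, hwT, hτT⟩ :=
    Vale.Agent.P272.K.QN.H327.exists_frame hw hτ
  set σ := Tuple.sort η with hσ
  have hmono : Monotone (η ∘ σ) := Tuple.monotone_sort η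
  have h3 : Tᴴ * Uᴴ = 1 := by rw [← Matrix.conjTranspose_mul, hUT, Matrix.conjTranspose_one]
  have h3' : Uᴴ * Tᴴ = 1 := by rw [← Matrix.conjTranspose_mul, hTU, Matrix.conjTranspose_one]
  set H : Finset (Fin d) := (univ.filter fun j : Fin d => k ≤ (j : ℕ)).map σ.toEmbedding with hH
  have hHc : H.card = d - k := by
    rw [hH, Finset.card_map]
    have : (univ.filter fun j : Fin d => k ≤ (j : ℕ)) = Finset.Ici ⟨k, hk⟩ := by
      ext j
      simp [Fin.le_def]
    rw [this, Fin.card_Ici]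
  set μ : ℝ := (η ∘ σ) ⟨k, hk⟩ with hμ
  have hμH : ∀ j ∈ H, μ ≤ η j := by
    intro j hj
    obtain ⟨i, hi, rfl⟩ := Finset.mem_map.1 hj
    exact hmono (Fin.le_def.2 (Finset.mem_filter.1 hi).2)
  refine ⟨T, U, η, H, μ, hη, hUT, hTU, hwT, hτT, hHc, hη _, hμH, ?_⟩
  -- the determinants
  have hTd : (T.det * Tᴴ.det).re = w.det.re := by rw [hwT, Matrix.det_mul]
  have hw1 : 0 < w.det.re := (Complex.lt_def.1 hw.det_pos).1
  have hw2 : w.det.im = 0 := (Complex.lt_def.1 hw.det_pos).2.symm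
  have e1 : τ.det = w.det * ∏ i, ((η i : ℝ) : ℂ) := by
    rw [hτT, hwT, Matrix.det_mul, Matrix.det_mul, Matrix.det_mul, Matrix.det_diagonal]
    ring
  have e2 : (w + τ).det = w.det * ∏ i, ((1 + η i : ℝ) : ℂ) := by
    have h9 : w + τ = T * Matrix.diagonal (fun k => ((1 + η k : ℝ) : ℂ)) * Tᴴ := by
      have h10 : Matrix.diagonal (fun k => ((1 + η k : ℝ) : ℂ)) =
          1 + Matrix.diagonal (fun k => ((η k : ℝ) : ℂ)) := by
        rw [← Matrix.diagonal_one, Matrix.diagonal_add]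
        congr 1
        funext i
        push_cast
        rfl
      rw [h10, Matrix.mul_add, Matrix.add_mul, Matrix.mul_one, ← hwT, ← hτT]
    rw [h9, hwT, Matrix.det_mul, Matrix.det_mul, Matrix.det_mul, Matrix.det_diagonal]
    ring
  have e3 : τ.det.re = w.det.re * ∏ i, η i := by
    rw [e1, ← Complex.ofReal_prod, Complex.mul_re, Complex.ofReal_re, Complex.ofReal_im, mul_zero,
      sub_zero]
  have e4 : (w + τ).det.re = w.det.re * ∏ i, (1 + η i) := by
    rw [e2, ← Complex.ofReal_prod, Complex.mul_re, Complex.ofReal_re, Complex.ofReal_im, mul_zero,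
      sub_zero]
  have hP : 0 < ∏ i, (1 + η i) := Finset.prod_pos fun i _ => by linarith [hη i]
  have e5 : τ.det.re / (w + τ).det.re = (∏ i, η i) / ∏ i, (1 + η i) := by
    rw [e3, e4, mul_div_mul_left _ _ hw1.ne']
  have e6 : (∏ i, η i) / ∏ i, (1 + η i) ≤ μ ^ (k + 1) := by
    rw [div_le_iff₀ hP, ← Equiv.prod_comp σ η, ← Equiv.prod_comp σ (fun i => 1 + η i)]
    exact prod_le_pow (l := η ∘ σ) hmono (fun i => hη _) hk
  have e7 : 0 ≤ (∏ i, η i) / ∏ i, (1 + η i) :=
    div_nonneg (Finset.prod_nonneg fun i _ => hη i) hP.le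
  rw [e5]
  calc ((∏ i, η i) / ∏ i, (1 + η i)) ^ (1 / ((k : ℝ) + 1))
      ≤ (μ ^ (k + 1)) ^ (1 / ((k : ℝ) + 1)) :=
        Real.rpow_le_rpow e7 e6 (by positivity)
    _ = μ := by
        have hμ0 : 0 ≤ μ := hη _
        rw [← Real.rpow_natCast, ← Real.rpow_mul hμ0]
        push_cast
        rw [mul_one_div_cancel (by positivity), Real.rpow_one]

theorem nn_eps_le (p : Fin d) (x : FI d → ℂ) : nn (eps p *ᵥ x) ≤ nn x := by
  have h1 : ((nn (eps p *ᵥ x) : ℝ) : ℂ) = ((∑ I, (if p ∈ I then 0 else ‖x I‖ ^ 2) : ℝ) : ℂ) := by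
    rw [← ip_self, ip_eps_self]
    push_cast
    refine Finset.sum_congr rfl fun I _ => ?_
    split_ifs <;> simp
  have h2 := Complex.ofReal_injective h1
  rw [h2]
  unfold nn
  refine Finset.sum_le_sum fun I _ => ?_
  split_ifs
  · positivity
  · exact le_rfl

/-- **Pointwise bound for the minors of `t ↦ t ∧ a`.** -/
theorem rank_le {w τ : Matrix (Fin d) (Fin d) ℂ} (hw : w.PosDef) (hτ : τ.PosSemidef) {k : ℕ}
    (hk : k < d) (a : Fin (k + 1) → FI d → ℂ) (J : Fin (k + 1) → FI d)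
    (s : Fin (k + 1) → Fin d) :
    (τ.det.re / (w + τ).det.re) ^ (1 / ((k : ℝ) + 1)) *
        ‖(Matrix.of fun i j => (eps (s j) *ᵥ a i) (J i)).det‖ ^ 2 ≤
      (((Nat.factorial (k + 1) : ℝ) ^ 2 * (k + 1)) *
        ((∏ j, (w⁻¹ (s j) (s j)).re) * (∏ j, (lam w (J j) (J j)).re) * (d : ℝ) ^ k)) *
        ∑ i, (qfw w τ (a i) (a i)).re * ∏ j ∈ univ.erase i, nsw w (a j) := by
  obtain ⟨T, U, η, H, μ, hη, hUT, hTU, hwT, hτT, hHc, hμ0, hμH, hμ⟩ :=
    exists_frame_sorted hw hτ hk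
  refine (mul_le_mul_of_nonneg_right hμ (by positivity)).trans ?_
  have hTUl : lam T * lam U = 1 := by rw [← lam_mul, hTU, lam_one]
  set b : Fin (k + 1) → FI d → ℂ := fun i => lam U *ᵥ a i with hb
  set B : Fin (k + 1) → Fin d → ℂ := fun i p => (lam T *ᵥ (eps p *ᵥ b i)) (J i) with hB
  set m : Fin (k + 1) → Fin d → ℂ := fun j p => U p (s j) with hm
  have hdet : (Matrix.of fun i j => (eps (s j) *ᵥ a i) (J i)) =
      Matrix.of fun i j => ∑ p, B i p * m j p := by
    ext i j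
    simp only [Matrix.of_apply, hB, hm]
    have h4 : eps (s j) *ᵥ a i = lam T *ᵥ (lam U *ᵥ (eps (s j) *ᵥ a i)) := by
      rw [Matrix.mulVec_mulVec, hTUl, Matrix.one_mulVec]
    rw [h4, lamU_eps, Matrix.mulVec_sum, Finset.sum_apply]
    refine Finset.sum_congr rfl fun p _ => ?_
    rw [Matrix.mulVec_smul, Pi.smul_apply, smul_eq_mul, mul_comm]
  have hmn : ∀ j, nn (m j) = (w⁻¹ (s j) (s j)).re := by
    intro j
    rw [inv_eq hUT hTU hwT, Matrix.mul_apply, Complex.re_sum]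
    refine Finset.sum_congr rfl fun p _ => ?_
    rw [Matrix.conjTranspose_apply, ← starRingEnd_apply, mul_comm, Complex.mul_conj,
      Complex.normSq_eq_norm_sq, Complex.ofReal_re]
  have hTn : ∀ K : FI d, nn (fun I => lam T K I) = (lam w K K).re := by
    intro K
    rw [hwT, lam_mul, lam_conjTranspose, Matrix.mul_apply, Complex.re_sum]
    refine Finset.sum_congr rfl fun I _ => ?_
    rw [Matrix.conjTranspose_apply, ← starRingEnd_apply, Complex.mul_conj,
      Complex.normSq_eq_norm_sq, Complex.ofReal_re]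
  have hBle : ∀ i p, ‖B i p‖ ^ 2 ≤ (lam w (J i) (J i)).re * nn (eps p *ᵥ b i) := by
    intro i p
    have h1 : ‖B i p‖ ≤ √(nn (fun I => lam T (J i) I)) * √(nn (eps p *ᵥ b i)) :=
      cs (fun I => lam T (J i) I) (eps p *ᵥ b i)
    have h2 := pow_le_pow_left₀ (norm_nonneg _) h1 2
    rwa [mul_pow, Real.sq_sqrt (nn_nonneg _), Real.sq_sqrt (nn_nonneg _), hTn] at h2
  have hq : ∀ i, (qfw w τ (a i) (a i)).re = ∑ p, η p * nn (eps p *ᵥ b i) := by
    intro i
    rw [qfw_eq hUT hTU hwT hτT, Complex.re_sum]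
    refine Finset.sum_congr rfl fun p _ => ?_
    rw [ip_self, ← Complex.ofReal_mul, Complex.ofReal_re]
  have hL0 : ∀ K : FI d, 0 ≤ (lam w K K).re := fun K => by
    rw [← hTn]; exact nn_nonneg _
  have hoff : ∀ i, μ * nn (off Hᶜ (B i)) ≤
      (lam w (J i) (J i)).re * (qfw w τ (a i) (a i)).re := by
    intro i
    rw [hq, nn, Finset.mul_sum, Finset.mul_sum]
    refine Finset.sum_le_sum fun p _ => ?_
    by_cases hp : p ∈ Hᶜ
    · simp only [off, hp, if_true, norm_zero]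
      have := mul_nonneg (hL0 (J i)) (mul_nonneg (hη p) (nn_nonneg (eps p *ᵥ b i)))
      simpa using this
    · simp only [off, hp, if_false]
      have hpH : p ∈ H := by simpa using hp
      calc μ * ‖B i p‖ ^ 2 ≤ η p * ((lam w (J i) (J i)).re * nn (eps p *ᵥ b i)) :=
            mul_le_mul (hμH p hpH) (hBle i p) (by positivity) (hη p)
        _ = _ := by ring
  have hful : ∀ i, nn (B i) ≤ (lam w (J i) (J i)).re * (d * nsw w (a i)) := by
    intro i
    have h1 : nn (B i) ≤ ∑ p : Fin d, (lam w (J i) (J i)).re * nsw w (a i) := by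
      unfold nn
      refine Finset.sum_le_sum fun p _ => (hBle i p).trans ?_
      rw [nsw_eq hUT hTU hwT]
      exact mul_le_mul_of_nonneg_left (nn_eps_le _ _) (hL0 _)
    refine h1.trans (le_of_eq ?_)
    rw [Finset.sum_const, Finset.card_univ, Fintype.card_fin, nsmul_eq_mul]
    ring
  have hcard : (Hᶜ).card < k + 1 := by
    rw [Finset.card_compl, Fintype.card_fin, hHc]
    omega
  have hmain := det_bound Hᶜ hcard B m
  have hPM : 0 ≤ ∏ k, nn (m k) := Finset.prod_nonneg fun _ _ => nn_nonneg _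
  have hns : ∀ i, 0 ≤ nsw w (a i) := fun i => by
    rw [nsw_eq hUT hTU hwT]; exact nn_nonneg _
  rw [hdet]
  simp only [← hmn]
  calc μ * ‖(Matrix.of fun i j => ∑ p, B i p * m j p).det‖ ^ 2
      ≤ μ * (((Nat.factorial (k + 1) : ℝ) ^ 2 * ((k + 1 : ℕ) : ℝ)) * (∏ k, nn (m k)) *
      ∑ i, nn (off Hᶜ (B i)) * ∏ j ∈ univ.erase i, nn (B j)) :=
        mul_le_mul_of_nonneg_left hmain hμ0
    _ = ((Nat.factorial (k + 1) : ℝ) ^ 2 * ((k + 1 : ℕ) : ℝ)) * (∏ k, nn (m k)) *
      ∑ i, (μ * nn (off Hᶜ (B i))) * ∏ j ∈ univ.erase i, nn (B j) := by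
        rw [Finset.mul_sum, Finset.mul_sum, Finset.mul_sum]
        exact Finset.sum_congr rfl fun i _ => by ring
    _ ≤ ((Nat.factorial (k + 1) : ℝ) ^ 2 * ((k + 1 : ℕ) : ℝ)) * (∏ k, nn (m k)) *
      ∑ i, ((∏ j, (lam w (J j) (J j)).re) * (d : ℝ) ^ k) *
        ((qfw w τ (a i) (a i)).re * ∏ j ∈ univ.erase i, nsw w (a j)) := by
        refine mul_le_mul_of_nonneg_left (Finset.sum_le_sum fun i _ => ?_)
          (mul_nonneg (by positivity) hPM)
        have h1 : ∏ j ∈ univ.erase i, nn (B j) ≤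
            ∏ j ∈ univ.erase i, ((lam w (J j) (J j)).re * (d * nsw w (a j))) :=
          Finset.prod_le_prod (fun j _ => nn_nonneg _) fun j _ => hful j
        have h2 : ∏ j ∈ univ.erase i, ((lam w (J j) (J j)).re * (d * nsw w (a j))) =
            (∏ j ∈ univ.erase i, (lam w (J j) (J j)).re) *
              ((d : ℝ) ^ k * ∏ j ∈ univ.erase i, nsw w (a j)) := by
          rw [Finset.prod_mul_distrib, Finset.prod_mul_distrib, Finset.prod_const,
            Finset.card_erase_of_mem (mem_univ i), Finset.card_univ, Fintype.card_fin,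
            Nat.add_sub_cancel]
        have hq0 : 0 ≤ (qfw w τ (a i) (a i)).re := by
          rw [hq]
          exact Finset.sum_nonneg fun p _ => mul_nonneg (hη p) (nn_nonneg _)
        calc (μ * nn (off Hᶜ (B i))) * ∏ j ∈ univ.erase i, nn (B j)
            ≤ ((lam w (J i) (J i)).re * (qfw w τ (a i) (a i)).re) *
              ((∏ j ∈ univ.erase i, (lam w (J j) (J j)).re) *
              ((d : ℝ) ^ k * ∏ j ∈ univ.erase i, nsw w (a j))) :=
              mul_le_mul (hoff i) (h1.trans (le_of_eq h2))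
                (Finset.prod_nonneg fun j _ => nn_nonneg _) (mul_nonneg (hL0 _) hq0)
          _ = (((lam w (J i) (J i)).re * ∏ j ∈ univ.erase i, (lam w (J j) (J j)).re) *
              (d : ℝ) ^ k) *
              ((qfw w τ (a i) (a i)).re * ∏ j ∈ univ.erase i, nsw w (a j)) := by ring
          _ = _ := by
              rw [Finset.mul_prod_erase _ (fun j => (lam w (J j) (J j)).re) (mem_univ i)]
    _ = _ := by
        rw [← Finset.mul_sum]
        push_cast
        ring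

end Vale.Agent.P301.H951
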