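import Vale.Agent.P301.H794.MinLoc
import Vale.Agent.P301.H951.PTLin

/-! P301, H951 (N3-PT): local form of the rank bound for `t ↦ t ∧ G` -/

open Filter Metric Set MeasureTheory Topology
open scoped ENNReal ComplexOrder Matrix ComplexConjugate

set_option linter.all false

noncomputable section

namespace Vale.Agent.P301.H951

open Vale.Agent.P272.K Vale.Agent.P299.IX Vale.Agent.P299.IX.Fock Vale.Agent.P301.H85
open Vale.Agent.P301.H794

variable {d : ℕ}

theorem eps_sub_norm (s : Fin d) (J : FI d) (u v : FI d → ℂ) :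
    ‖(eps s *ᵥ u) J - (eps s *ᵥ v) J‖ ^ 2 = if s ∈ J then ‖u (J.erase s) - v (J.erase s)‖ ^ 2
      else 0 := by
  rw [eps_mulVec, eps_mulVec]
  split_ifs with h
  · have hs : ‖sg s J‖ = 1 := by
      unfold sg
      rw [norm_pow, norm_neg, norm_one, one_pow]
    rw [← mul_sub, norm_mul, hs, one_mul]
  · simp

/-- **Local form.** -/
theorem rank_zero {α : Type*} {l : Filter α} [l.NeBot] {k n : ℕ} (hk : k < d) (hnk : n ≤ k)
    {c : Cm d} {R : ℝ}
    {w : Cm d → Matrix (Fin d) (Fin d) ℂ} (hw : ∀ z ∈ closedBall c R, (w z).PosDef)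
    (hwc : ∀ i j, ContinuousOn (fun z => w z i j) (closedBall c R))
    {τ : α → Cm d → Matrix (Fin d) (Fin d) ℂ}
    (hτ : ∀ᶠ N in l, ∀ z ∈ closedBall c R, (τ N z).PosSemidef)
    (hτc : ∀ᶠ N in l, ∀ i j, ContinuousOn (fun z => τ N z i j) (closedBall c R))
    {g : α → Fin (k + 1) → Cm d → FI d → ℂ}
    (hg : ∀ᶠ N in l, ∀ a I, ContinuousOn (fun z => g N a z I) (closedBall c R))
    {G : Fin (k + 1) → Cm d → FI d → ℂ}
    (hG : ∀ a I, ContinuousOn (fun z => G a z I) (closedBall c R))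
    (hlim : ∀ a I, Tendsto
      (fun N => ∫⁻ z in closedBall c R, ENNReal.ofReal (‖g N a z I - G a z I‖ ^ 2)) l (𝓝 0))
    {ε : α → ℝ} (hε0 : ∀ᶠ N in l, 0 < ε N) (hε : Tendsto ε l (𝓝 0))
    {CS CQ K c0 : ℝ} (hc0 : 0 < c0)
    (hS : ∀ᶠ N in l, ∀ a,
      ∫⁻ z in closedBall c R, ENNReal.ofReal (nsw (w z) (g N a z)) ≤ ENNReal.ofReal CS)
    (hQ : ∀ᶠ N in l, ∀ a, ∫⁻ z in closedBall c R,
      ENNReal.ofReal ((qfw (w z) (τ N z) (g N a z) (g N a z)).re) ≤ ENNReal.ofReal (CQ * ε N))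
    (hK : ∀ᶠ N in l,
      ∫⁻ z in closedBall c R, ENNReal.ofReal ((w z + τ N z).det.re) ≤ ENNReal.ofReal K)
    (hdet : ∀ᶠ N in l, ∀ z ∈ closedBall c R, c0 * ε N ^ n * (w z).det.re ≤ (τ N z).det.re)
    (J : Fin (k + 1) → FI d) (s : Fin (k + 1) → Fin d) {z₀ : Cm d} (hz₀ : z₀ ∈ ball c R) :
    (Matrix.of fun a b => (eps (s b) *ᵥ G a z₀) (J a)).det = 0 := by
  by_contra hne
  set U : Cm d → Matrix (Fin (k + 1)) (Fin (k + 1)) ℂ := fun z =>
    Matrix.of fun a b => (eps (s b) *ᵥ G a z) (J a) with hU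
  have hUne : 0 < ‖(U z₀).det‖ := norm_pos_iff.2 hne
  set κ : ℝ := ‖(U z₀).det‖ / 2 with hκ
  have hκ0 : 0 < κ := by positivity
  have hUe : ∀ a b, ContinuousOn (fun z => U z a b) (closedBall c R) := fun a b =>
    contOn_mulVec _ (fun I => hG a I) (J a)
  have hUc : ContinuousOn (fun z => ‖(U z).det‖) (closedBall c R) := (contOn_det hUe).norm
  have hnb : closedBall c R ∈ 𝓝 z₀ := mem_of_superset (isOpen_ball.mem_nhds hz₀)
    ball_subset_closedBall
  have hcat : ContinuousAt (fun z => ‖(U z).det‖) z₀ := hUc.continuousAt hnb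
  have hev : ∀ᶠ z in 𝓝 z₀, z ∈ closedBall c R ∧ κ < ‖(U z).det‖ :=
    Filter.Eventually.and hnb (hcat.tendsto.eventually_const_lt (by
      show ‖(U z₀).det‖ / 2 < ‖(U z₀).det‖
      linarith))
  obtain ⟨ρ, hρ, hρs⟩ := Metric.nhds_basis_closedBall.mem_iff.1 hev
  set S : Set (Cm d) := closedBall z₀ ρ with hs
  have hsR : S ⊆ closedBall c R := fun z hz => (hρs hz).1
  have hsm : MeasurableSet S := measurableSet_closedBall
  have hsc : IsCompact S := isCompact_closedBall _ _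
  have hμ0 : (volume : Measure (Cm d)) S ≠ 0 :=
    ((measure_ball_pos volume z₀ hρ).trans_le (measure_mono ball_subset_closedBall)).ne'
  -- bounds on `S`
  have hb : ∃ b : ℝ, ∀ z ∈ S, ∀ i j, ‖U z i j‖ ≤ b := by
    have h1 : ∀ i j, ∃ b : ℝ, ∀ z ∈ S, ‖U z i j‖ ≤ b := fun i j =>
      hsc.exists_bound_of_continuousOn ((hUe i j).mono hsR)
    choose b hb using h1
    refine ⟨∑ i, ∑ j, |b i j|, fun z hz i j => (hb i j z hz).trans ((le_abs_self _).trans ?_)⟩
    exact (Finset.single_le_sum (f := fun j => |b i j|) (fun j _ => abs_nonneg _)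
      (Finset.mem_univ j)).trans (Finset.single_le_sum (f := fun i => ∑ j, |b i j|)
        (fun i _ => Finset.sum_nonneg fun j _ => abs_nonneg _) (Finset.mem_univ i))
  obtain ⟨b, hb⟩ := hb
  have hwdet : ∀ z ∈ closedBall c R, (w z).det ≠ 0 := fun z hz => (hw z hz).det_pos.ne'
  have hP : ∃ Λ : ℝ, 0 ≤ Λ ∧ ∀ z ∈ S, (∏ j, ((w z)⁻¹ (s j) (s j)).re) *
      (∏ j, (lam (w z) (J j) (J j)).re) * (d : ℝ) ^ k ≤ Λ := by
    have h1 : ContinuousOn (fun z => (∏ j, ((w z)⁻¹ (s j) (s j)).re) *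
      (∏ j, (lam (w z) (J j) (J j)).re) * (d : ℝ) ^ k) S := by
      refine (ContinuousOn.mul ?_ ?_).mul continuousOn_const
      · exact continuousOn_finsetProd _ fun j _ => Complex.continuous_re.comp_continuousOn
          ((contOn_inv hwc hwdet _ _).mono hsR)
      · exact continuousOn_finsetProd _ fun j _ => Complex.continuous_re.comp_continuousOn
          ((contOn_lam hwc _ _).mono hsR)
    obtain ⟨Λ, hΛ⟩ := hsc.exists_bound_of_continuousOn h1
    exact ⟨|Λ|, abs_nonneg _, fun z hz => (le_abs_self _).trans ((hΛ z hz).trans (le_abs_self _))⟩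
  obtain ⟨Λ, hΛ0, hΛ⟩ := hP
  have hwre : ∀ z ∈ closedBall c R, 0 < (w z).det.re := fun z hz =>
    (Complex.lt_def.1 (hw z hz).det_pos).1
  obtain ⟨μ0, hμ00, hμ0'⟩ : ∃ μ0 : ℝ, 0 < μ0 ∧ ∀ z ∈ S, μ0 ≤ (w z).det.re := by
    obtain ⟨z₁, hz₁, hmin⟩ := hsc.exists_isMinOn ⟨z₀, mem_closedBall_self hρ.le⟩
      ((Complex.continuous_re.comp_continuousOn (contOn_det hwc)).mono hsR)
    exact ⟨(w z₁).det.re, hwre z₁ (hsR hz₁), fun z hz => hmin hz⟩
  have hθ : (n : ℝ) / ((k : ℝ) + 1) < 1 := by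
    rw [div_lt_one (by positivity)]
    have : (n : ℝ) ≤ k := by exact_mod_cast hnk
    linarith
  refine core_false (μ := volume) (s := S) (l := l) hsm hμ0 (r := k + 1)
    (A := fun N z => Matrix.of fun a b => (eps (s b) *ᵥ g N a z) (J a)) (U := U) (b := b) (κ := κ)
    hκ0 hb
    (fun z hz => (hρs hz).2.le) ?_ ?_ (ε := ε) hε0 hε (θ := (n : ℝ) / ((k : ℝ) + 1)) hθ
    (S := fun N a z => nsw (w z) (g N a z)) (CS := CS) ?_ ?_ ?_
    (Q := fun N a z => (qfw (w z) (τ N z) (g N a z) (g N a z)).re) (CQ := CQ) ?_ ?_ ?_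
    (t := fun N z => (w z + τ N z).det.re) (K := K) ?_ ?_
    (m := fun N z => ((τ N z).det.re / (w z + τ N z).det.re) ^ (1 / ((k : ℝ) + 1))) ?_
    (C := ((Nat.factorial (k + 1) : ℝ) ^ 2 * (k + 1)) * Λ) ?_
  · filter_upwards [hg] with N hg i j
    have h1 : ContinuousOn (fun z => (eps (s j) *ᵥ g N i z) (J i)) S :=
      (contOn_mulVec _ (fun I => hg i I) (J i)).mono hsR
    exact ((h1.sub ((hUe i j).mono hsR)).norm.pow 2).aemeasurable hsm
  · intro i j
    simp only [Matrix.of_apply, hU]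
    simp only [eps_sub_norm]
    split_ifs with hsJ
    · refine tendsto_of_tendsto_of_tendsto_of_le_of_le tendsto_const_nhds
        (hlim i ((J i).erase (s j))) (fun _ => zero_le) fun N => lintegral_mono_set hsR
    · simp
  · filter_upwards [hg] with N hg a
    exact (Complex.continuous_re.comp_continuousOn ((contOn_ipw hwc hwdet (hg a) (hg a)).mono
      hsR)).aemeasurable hsm
  · filter_upwards [hS] with N hS a
    exact (lintegral_mono_set hsR).trans (hS a)
  · exact Filter.Eventually.of_forall fun N a z hz => nsw_nonneg (hw z (hsR hz)) _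
  · filter_upwards [hg, hτc] with N hg hτc a
    exact (Complex.continuous_re.comp_continuousOn
      ((contOn_qfw hwc hwdet hτc (hg a) (hg a)).mono hsR)).aemeasurable hsm
  · filter_upwards [hQ] with N hQ a
    exact (lintegral_mono_set hsR).trans (hQ a)
  · filter_upwards [hτ] with N hτ a z hz
    exact qfw_nonneg (hw z (hsR hz)) (hτ z (hsR hz)) _
  · filter_upwards [hτc] with N hτc
    exact (Complex.continuous_re.comp_continuousOn
      ((contOn_det fun i j => (hwc i j).add (hτc i j)).mono hsR)).aemeasurable hsm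
  · filter_upwards [hK] with N hK
    exact (lintegral_mono_set hsR).trans hK
  · intro T hT
    refine ⟨(c0 * μ0 / T) ^ (1 / ((k : ℝ) + 1)), Real.rpow_pos_of_pos (by positivity) _, ?_⟩
    filter_upwards [hdet, hτ, hε0] with N hdet hτ hε0 z hz ht
    have hz' := hsR hz
    have hsum : 0 < (w z + τ N z).det.re :=
      (Complex.lt_def.1 ((hw z hz').add_posSemidef (hτ z hz')).det_pos).1
    have h1 : c0 * μ0 / T * ε N ^ n ≤ (τ N z).det.re / (w z + τ N z).det.re := by
      rw [div_mul_eq_mul_div, div_le_div_iff₀ hT hsum]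
      have h2 := hdet z hz'
      have h3 := hμ0' z hz
      have h4 : c0 * μ0 * ε N ^ n ≤ (τ N z).det.re := by
        refine le_trans ?_ h2
        have : 0 < c0 * ε N ^ n := by positivity
        nlinarith
      have h5 : 0 ≤ (τ N z).det.re := le_trans (by positivity) h4
      calc c0 * μ0 * ε N ^ n * (w z + τ N z).det.re ≤ (τ N z).det.re * (w z + τ N z).det.re :=
            mul_le_mul_of_nonneg_right h4 hsum.le
        _ ≤ (τ N z).det.re * T := mul_le_mul_of_nonneg_left ht.le h5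
    calc (c0 * μ0 / T) ^ (1 / ((k : ℝ) + 1)) * ε N ^ ((n : ℝ) / ((k : ℝ) + 1))
        = (c0 * μ0 / T * ε N ^ n) ^ (1 / ((k : ℝ) + 1)) := by
          rw [Real.mul_rpow (by positivity) (by positivity), ← Real.rpow_natCast (ε N) n,
            ← Real.rpow_mul hε0.le, mul_one_div]
      _ ≤ _ := Real.rpow_le_rpow (by positivity) h1 (by positivity)
  · filter_upwards [hτ] with N hτ z hz
    have hz' := hsR hz
    have h1 := rank_le (hw z hz') (hτ z hz') hk (fun a => g N a z) J s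
    refine h1.trans ?_
    refine mul_le_mul_of_nonneg_right (mul_le_mul_of_nonneg_left (hΛ z hz) (by positivity)) ?_
    exact Finset.sum_nonneg fun a _ => mul_nonneg (qfw_nonneg (hw z hz') (hτ z hz') _)
      (Finset.prod_nonneg fun j _ => nsw_nonneg (hw z hz') _)

end Vale.Agent.P301.H951
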