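import Vale.Agent.P301.H794.CYLim
import Vale.Agent.P301.H951.PTLoc
import Vale.Agent.P301.H951.PTAnn2

/-! P301, H951 (N3-PT): the Grassmann point of the limits of approximate kernel elements. -/

open Filter Metric Set MeasureTheory Topology
open scoped ENNReal ComplexOrder Matrix ComplexConjugate Manifold ContDiff

set_option linter.all false

noncomputable section

namespace Vale.Agent.P301.H951

open Vale.Agent.P272.K Vale.Agent.P299.IX Vale.Agent.P299.IX.Fock Vale.Agent.P301.H85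
open Vale.Agent.P301.H599 Vale.Agent.P301.H862 Vale.Agent.P299.H954 Vale.Agent.P301.H794

variable {d : ℕ} {X : Type} [TopologicalSpace X] [ChartedSpace (Cm d) X]
  {ι : Type} [IsManifold 𝓘(ℂ, Cm d) ω X] [CompactSpace X] [T2Space X]

/-- approximate kernel elements `g N` of `L` for the metrics `ρ₀ + v N` of curvature
`≥ b τ_N - a ε_N w`, converging locally to `G` -/
structure AKer {α : Type*} (l : Filter α) (w : Fm d X) (τ : α → Fm d X) (ε : α → ℝ)
    (L : LineBundle d X ι) (ρ₀ : ι → X → ℝ) (v : α → X → ℝ) (g : α → H862.Fam d X ι)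
    (G : H862.Fam d X ι) : Prop where
  metric : IsMetric L ρ₀
  smooth : ∀ᶠ N in l, Smooth (d := d) (v N)
  upper : ∃ C1 : ℝ, ∀ᶠ N in l, ∀ x, v N x ≤ C1
  curv : ∃ a b : ℝ, 0 ≤ a ∧ 0 < b ∧ ∀ᶠ N in l, ∀ i (e : Chart d X) x, At e x → x ∈ L.U i →
      (cHess (fun z => ρ₀ i (e.symm z) + v N (e.symm z)) (e x) +
        ((a * ε N : ℝ) : ℂ) • w e (e x) - (b : ℂ) • τ N e (e x)).PosSemidef
  sec : ∀ᶠ N in l, IsSec L (g N)
  bound : ∃ C2 : ℝ, ∀ᶠ N in l, (ip L (fun i x => ρ₀ i x + v N x) w (g N) (g N)).re ≤ C2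
  ker : ∃ C2 : ℝ, ∀ᶠ N in l,
      (ip L (fun i x => ρ₀ i x + v N x) w (DX (fun i x => ρ₀ i x + v N x) (g N))
        (DX (fun i x => ρ₀ i x + v N x) (g N))).re +
      (ip L (fun i x => ρ₀ i x + v N x) w (dX w (g N)) (dX w (g N))).re ≤ C2 * ε N
  lim : ∀ i (e : Chart d X) x, At e x → x ∈ L.U i → ∃ R : ℝ, 0 < R ∧
      closedBall (e x) R ⊆ dom L i e ∧
      (∀ I, ContinuousOn (fun z => G i e z I) (closedBall (e x) R)) ∧
      ∀ I, Tendsto (fun N => ∫⁻ z in closedBall (e x) R, ‖g N i e z I - G i e z I‖ₑ ^ 2) l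
        (𝓝 0)

/-- the local bounds for one section -/
theorem AKer.local {α : Type*} {l : Filter α} {w : Fm d X} (hw : IsKahler w) {τ : α → Fm d X}
    (hτ : ∀ᶠ N in l, IsKahler (τ N)) {ε : α → ℝ} (hε0 : ∀ᶠ N in l, 0 < ε N)
    {L : LineBundle d X ι} {ρ₀ : ι → X → ℝ} {v : α → X → ℝ} {g : α → H862.Fam d X ι}
    {G : H862.Fam d X ι} (hA : AKer l w τ ε L ρ₀ v g G) {i : ι} {e : Chart d X}
    (he : e ∈ atlas (Cm d) X) {B : Set (Cm d)} (hBc : IsCompact B) (hBn : B.Nonempty)
    (hRd : B ⊆ dom L i e) :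
    (∀ᶠ N in l, ∀ I, ContinuousOn (fun z => g N i e z I) B) ∧
    ∃ CS CQ : ℝ, (∀ᶠ N in l,
        ∫⁻ z in B, ENNReal.ofReal (nsw (w e z) (g N i e z)) ≤ ENNReal.ofReal CS) ∧
      (∀ᶠ N in l, ∫⁻ z in B,
        ENNReal.ofReal ((qfw (w e z) (τ N e z) (g N i e z) (g N i e z)).re) ≤
          ENNReal.ofReal (CQ * ε N)) := by
  obtain ⟨C1, hvC⟩ := hA.upper
  obtain ⟨a, b, ha, hb, hcurv⟩ := hA.curv
  obtain ⟨C2', hgn'⟩ := hA.bound
  obtain ⟨C2'', hgk'⟩ := hA.ker
  set C2 : ℝ := max C2' C2'' with hC2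
  have hgn : ∀ᶠ N in l, (ip L (fun i x => ρ₀ i x + v N x) w (g N) (g N)).re ≤ C2 := by
    filter_upwards [hgn'] with N h using h.trans (le_max_left _ _)
  have hgk : ∀ᶠ N in l,
      (ip L (fun i x => ρ₀ i x + v N x) w (DX (fun i x => ρ₀ i x + v N x) (g N))
        (DX (fun i x => ρ₀ i x + v N x) (g N))).re +
      (ip L (fun i x => ρ₀ i x + v N x) w (dX w (g N)) (dX w (g N))).re ≤ C2 * ε N := by
    filter_upwards [hgk', hε0] with N h hε
    exact h.trans (mul_le_mul_of_nonneg_right (le_max_right _ _) hε.le)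
  have hρ₀ := hA.metric
  have hv := hA.smooth
  have hg := hA.sec
  have hBt : B ⊆ e.target := hRd.trans inter_subset_left
  have hat : ∀ z ∈ B, At e (e.symm z) ∧ e.symm z ∈ L.U i ∧ e (e.symm z) = z := fun z hz =>
    H862.At.of_dom he (hRd hz)
  have hwp : ∀ z ∈ B, (w e z).PosDef := fun z hz => by
    have h1 := hat z hz
    have := hw.posDef e _ h1.1
    rwa [h1.2.2] at this
  have hwc : ∀ p q, ContinuousOn (fun z => w e z p q) B := fun p q =>
    (hw.toIsHermitian.continuousOn_entry he p q).mono hBt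
  have hwre : ∀ z ∈ B, 0 < (w e z).det.re := fun z hz => (Complex.lt_def.1 (hwp z hz).det_pos).1
  have hρc : ContinuousOn (fun z => ρ₀ i (e.symm z)) B := fun z hz => by
    have h1 := hat z hz
    have := (hρ₀.smooth i e _ h1.1 h1.2.1).continuousAt
    rw [h1.2.2] at this
    exact this.continuousWithinAt
  obtain ⟨M0, hM0⟩ := hBc.exists_bound_of_continuousOn hρc
  obtain ⟨μ0, hμ0, hμ⟩ : ∃ μ0 : ℝ, 0 < μ0 ∧ ∀ z ∈ B, μ0 ≤ (w e z).det.re := by
    obtain ⟨z₁, hz₁, hmin⟩ := hBc.exists_isMinOn hBn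
      (Complex.continuous_re.comp_continuousOn (contOn_det hwc))
    exact ⟨(w e z₁).det.re, hwre z₁ hz₁, fun z hz => hmin hz⟩
  set κ1 : ℝ := Real.exp (-(M0 + C1)) * μ0 with hκ1
  have hκ10 : 0 < κ1 := by positivity
  -- the lower bound of the weight
  have hwt : ∀ᶠ N in l, ∀ z ∈ B,
      κ1 ≤ Real.exp (-(wt (fun i x => ρ₀ i x + v N x) i e z)) * (w e z).det.re := by
    filter_upwards [hvC] with N hvC z hz
    refine mul_le_mul (Real.exp_le_exp.2 ?_) (hμ z hz) hμ0.le (Real.exp_pos _).le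
    have h1 : ρ₀ i (e.symm z) ≤ M0 := (le_abs_self _).trans (hM0 z hz)
    have h2 := hvC (e.symm z)
    show -(M0 + C1) ≤ -(ρ₀ i (e.symm z) + v N (e.symm z))
    linarith
  refine ⟨?_, κ1⁻¹ * C2, (b * κ1)⁻¹ * (C2 * (1 + a * d)), ?_, ?_⟩
  · filter_upwards [hg] with N hg I z hz
    have h1 := hat z hz
    have := (hg.smooth i e _ h1.1 h1.2.1 I).continuousAt
    rw [h1.2.2] at this
    exact this.continuousWithinAt
  · filter_upwards [hgn, hg, hwt, hv] with N hgn hg hwt hv
    have hρN := isMetric_add hρ₀ hv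
    have hD := hg.isDens_hX hρN hw hg
    have h1 := local_le_intC hD (fun i e x hx _ => hw_nonneg (kat hw hx) _) he hBc hRd
    calc ∫⁻ z in B, ENNReal.ofReal (nsw (w e z) (g N i e z))
        ≤ ∫⁻ z in B, ENNReal.ofReal κ1⁻¹ * ENNReal.ofReal
            ((hX (fun i x => ρ₀ i x + v N x) w (g N) (g N) i e z).re) := by
          refine setLIntegral_mono' hBc.measurableSet fun z hz => ?_
          rw [← ENNReal.ofReal_mul (by positivity)]
          apply ENNReal.ofReal_le_ofReal
          show _ ≤ κ1⁻¹ * (H862.hw _ _ _ _ _).re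
          rw [hw_re (hwp z hz), inv_mul_eq_div, le_div_iff₀ hκ10, mul_comm]
          exact mul_le_mul_of_nonneg_right (hwt z hz) (nsw_nonneg (hwp z hz) _)
      _ = ENNReal.ofReal κ1⁻¹ * ∫⁻ z in B, ENNReal.ofReal
            ((hX (fun i x => ρ₀ i x + v N x) w (g N) (g N) i e z).re) := by
          rw [lintegral_const_mul' _ _ ENNReal.ofReal_ne_top]
      _ ≤ ENNReal.ofReal κ1⁻¹ * ENNReal.ofReal C2 := by
          gcongr
          exact h1.trans (ENNReal.ofReal_le_ofReal hgn)
      _ = _ := by rw [← ENNReal.ofReal_mul (by positivity)]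
  · filter_upwards [hgn, hg, hwt, hv, hgk, hcurv, hε0, hτ] with N hgn hg hwt hv hgk hcurv hε0 hτ
    have hρN := isMetric_add hρ₀ hv
    set ρN : ι → X → ℝ := fun i x => ρ₀ i x + v N x with hρNd
    have hD1 := (hg.QX hρN hw).isDens_hX hρN hw hg
    have hD2 := (hg.isDens_hX hρN hw hg).const_mul ((a * ε N * d : ℝ) : ℂ)
    have hD := hD1.add hD2
    have haε : 0 ≤ a * ε N := mul_nonneg ha hε0.le
    have hlow : ∀ i (e : Chart d X) x, At e x → x ∈ L.U i →
        b * (Real.exp (-(wt ρN i e (e x))) * (w e (e x)).det.re *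
          (qfw (w e (e x)) (τ N e (e x)) (g N i e (e x)) (g N i e (e x))).re) ≤
        (hX ρN w (QX ρN w (g N)) (g N) i e (e x) +
          ((a * ε N * d : ℝ) : ℂ) * hX ρN w (g N) (g N) i e (e x)).re := by
      intro i e x hx hi
      have h1 := Qw_lower2 (f := wt ρN i e) (kat hw hx) haε (b := b) (hcurv i e x hx hi)
        (g N i e (e x))
      rw [Complex.add_re, Complex.re_ofReal_mul]
      have h2 : (hX ρN w (QX ρN w (g N)) (g N) i e (e x)).re =
        (H862.hw (wt ρN i e) (w e) (e x) (Qw (wt ρN i e) (w e) (e x) (g N i e (e x)))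
          (g N i e (e x))).re := rfl
      have h3 : (hX ρN w (g N) (g N) i e (e x)).re =
        (H862.hw (wt ρN i e) (w e) (e x) (g N i e (e x)) (g N i e (e x))).re := rfl
      rw [h2, h3]
      linarith
    have hq0 : ∀ (e : Chart d X) x, At e x → ∀ u : FI d → ℂ,
        0 ≤ (qfw (w e (e x)) (τ N e (e x)) u u).re := fun e x hx u =>
      qfw_nonneg (hw.posDef e x hx) (hτ.posDef e x hx).posSemidef u
    have hpos : ∀ i (e : Chart d X) x, At e x → x ∈ L.U i →
        0 ≤ (hX ρN w (QX ρN w (g N)) (g N) i e (e x) +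
          ((a * ε N * d : ℝ) : ℂ) * hX ρN w (g N) (g N) i e (e x)).re := by
      intro i e x hx hi
      refine le_trans ?_ (hlow i e x hx hi)
      have h1 := (Complex.lt_def.1 (hw.posDef e x hx).det_pos).1
      have h2 : 0 < (w e (e x)).det.re := h1
      have := hq0 e x hx (g N i e (e x))
      positivity
    have h1 := local_le_intC hD hpos he hBc hRd
    have hint : (intC L (fun i e z => hX ρN w (QX ρN w (g N)) (g N) i e z +
        ((a * ε N * d : ℝ) : ℂ) * hX ρN w (g N) (g N) i e z)).re ≤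
        C2 * (1 + a * d) * ε N := by
      rw [intC_add hD1 hD2, intC_const_mul (hg.isDens_hX hρN hw hg), Complex.add_re,
        Complex.re_ofReal_mul]
      have h3 := ip_QX_le hw hρN hg
      have h6 : a * ε N * d * (intC L (hX ρN w (g N) (g N))).re ≤ a * ε N * d * C2 :=
        mul_le_mul_of_nonneg_left hgn (by positivity)
      have h7 : (intC L (hX ρN w (QX ρN w (g N)) (g N))).re =
        (ip L ρN w (QX ρN w (g N)) (g N)).re := rfl
      rw [h7]
      linarith
    calc ∫⁻ z in B, ENNReal.ofReal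
          ((qfw (w e z) (τ N e z) (g N i e z) (g N i e z)).re)
        ≤ ∫⁻ z in B, ENNReal.ofReal (b * κ1)⁻¹ * ENNReal.ofReal
            ((hX ρN w (QX ρN w (g N)) (g N) i e z +
              ((a * ε N * d : ℝ) : ℂ) * hX ρN w (g N) (g N) i e z).re) := by
          refine setLIntegral_mono' hBc.measurableSet fun z hz => ?_
          rw [← ENNReal.ofReal_mul (by positivity)]
          apply ENNReal.ofReal_le_ofReal
          have h8 := hat z hz
          have h9 := hlow i e _ h8.1 h8.2.1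
          have h10 := hq0 e _ h8.1 (g N i e z)
          rw [h8.2.2] at h9 h10
          rw [inv_mul_eq_div, le_div_iff₀ (by positivity)]
          refine le_trans ?_ h9
          have h11 := hwt z hz
          calc (qfw (w e z) (τ N e z) (g N i e z) (g N i e z)).re * (b * κ1) =
              b * (κ1 * (qfw (w e z) (τ N e z) (g N i e z) (g N i e z)).re) := by ring
            _ ≤ _ := mul_le_mul_of_nonneg_left (mul_le_mul_of_nonneg_right h11 h10) hb.le
      _ = ENNReal.ofReal (b * κ1)⁻¹ * ∫⁻ z in B, ENNReal.ofReal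
            ((hX ρN w (QX ρN w (g N)) (g N) i e z +
              ((a * ε N * d : ℝ) : ℂ) * hX ρN w (g N) (g N) i e z).re) := by
          rw [lintegral_const_mul' _ _ ENNReal.ofReal_ne_top]
      _ ≤ ENNReal.ofReal (b * κ1)⁻¹ * ENNReal.ofReal (C2 * (1 + a * d) * ε N) := by
          gcongr
          exact h1.trans (ENNReal.ofReal_le_ofReal hint)
      _ = _ := by
          rw [← ENNReal.ofReal_mul (by positivity)]
          congr 1; ring

/-- **The minors of `t ↦ t ∧ G`** vanish for the limits `G` of approximate kernel elements. -/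
theorem rank_vanish {α : Type*} {l : Filter α} [l.NeBot] {k n : ℕ} (hk : k < d) (hnk : n ≤ k)
    {w : Fm d X} (hw : IsKahler w) {τ : α → Fm d X} (hτ : ∀ᶠ N in l, IsKahler (τ N))
    {ε : α → ℝ} (hε0 : ∀ᶠ N in l, 0 < ε N) (hε : Tendsto ε l (𝓝 0))
    {c0 K : ℝ} (hc0 : 0 < c0)
    (hdet : ∀ᶠ N in l, ∀ (e : Chart d X) x, At e x →
      c0 * ε N ^ n * (w e (e x)).det.re ≤ (τ N e (e x)).det.re)
    (hK : ∀ᶠ N in l, INT.intX (fun e z => (w e z + τ N e z).det.re) ≤ K)
    {κ : Type*} {L : κ → LineBundle d X ι} {ρ₀ : κ → ι → X → ℝ} {v : κ → α → X → ℝ}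
    {g : κ → α → H862.Fam d X ι} {G : κ → H862.Fam d X ι}
    (hA : ∀ c, AKer l w τ ε (L c) (ρ₀ c) (v c) (g c) (G c))
    {e : Chart d X} {x : X} (hx : At e x) (c : Fin (k + 1) → κ) (i : Fin (k + 1) → ι)
    (hi : ∀ a, x ∈ (L (c a)).U (i a)) (J : Fin (k + 1) → FI d) (s : Fin (k + 1) → Fin d) :
    (Matrix.of fun a b => (eps (s b) *ᵥ G (c a) (i a) e (e x)) (J a)).det = 0 := by
  choose Ra hRa hRd hGc hGl using fun a => (hA (c a)).lim (i a) e x hx (hi a)
  obtain ⟨R, hR, hRle⟩ : ∃ R : ℝ, 0 < R ∧ ∀ a, R ≤ Ra a := by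
    refine ⟨Finset.univ.inf' ⟨0, Finset.mem_univ _⟩ Ra, ?_, fun a => ?_⟩
    · exact (Finset.lt_inf'_iff _).2 fun a _ => hRa a
    · exact Finset.inf'_le _ (Finset.mem_univ a)
  set B := closedBall (e x) R with hB
  have hBc : IsCompact B := isCompact_closedBall _ _
  have hBs : ∀ a, B ⊆ closedBall (e x) (Ra a) := fun a => closedBall_subset_closedBall (hRle a)
  have hBd : ∀ a, B ⊆ dom (L (c a)) (i a) e := fun a => (hBs a).trans (hRd a)
  have hBn : B.Nonempty := ⟨e x, mem_closedBall_self hR.le⟩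
  have hBt : B ⊆ e.target := (hBd 0).trans inter_subset_left
  have hat : ∀ z ∈ B, At e (e.symm z) ∧ e (e.symm z) = z := fun z hz =>
    have := H862.At.of_dom hx.1 (hBd 0 hz)
    ⟨this.1, this.2.2⟩
  have hloc := fun a => (hA (c a)).local hw hτ hε0 hx.1 hBc hBn (hBd a)
  choose hgc CS CQ hS hQ using hloc
  have hε0' : ∀ᶠ N in l, 0 ≤ ε N := hε0.mono fun N h => h.le
  refine rank_zero (l := l) hk hnk (c := e x) (R := R) (w := w e) ?_ ?_
    (τ := fun N => τ N e) ?_ ?_ (g := fun N a => g (c a) N (i a) e) ?_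
    (G := fun a => G (c a) (i a) e) (fun a I => (hGc a I).mono (hBs a)) ?_ hε0 hε
    (CS := ∑ a, |CS a|) (CQ := ∑ a, |CQ a|) (K := K) hc0 ?_ ?_ ?_ ?_ J s (mem_ball_self hR)
  · intro z hz
    have h1 := hat z hz
    have := hw.posDef e _ h1.1
    rwa [h1.2] at this
  · intro p q
    exact (hw.toIsHermitian.continuousOn_entry hx.1 p q).mono hBt
  · filter_upwards [hτ] with N hτ z hz
    have h1 := hat z hz
    have := (hτ.posDef e _ h1.1).posSemidef
    rwa [h1.2] at this
  · filter_upwards [hτ] with N hτ p q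
    exact (hτ.toIsHermitian.continuousOn_entry hx.1 p q).mono hBt
  · exact Filter.eventually_all.2 hgc
  · intro a I
    refine tendsto_of_tendsto_of_tendsto_of_le_of_le tendsto_const_nhds (hGl a I)
      (fun _ => zero_le) fun N => ?_
    refine (lintegral_mono_set (hBs a)).trans (le_of_eq ?_)
    refine lintegral_congr fun z => ?_
    rw [← ofReal_norm_eq_enorm, ENNReal.ofReal_pow (norm_nonneg _)]
  · refine Filter.eventually_all.2 fun a => ?_
    filter_upwards [hS a] with N h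
    exact h.trans (ENNReal.ofReal_le_ofReal ((le_abs_self _).trans
      (Finset.single_le_sum (f := fun a => |CS a|) (fun _ _ => abs_nonneg _) (Finset.mem_univ a))))
  · refine Filter.eventually_all.2 fun a => ?_
    filter_upwards [hQ a, hε0'] with N h h0
    exact h.trans (ENNReal.ofReal_le_ofReal (mul_le_mul_of_nonneg_right ((le_abs_self _).trans
      (Finset.single_le_sum (f := fun a => |CQ a|) (fun _ _ => abs_nonneg _) (Finset.mem_univ a)))
      h0))
  · filter_upwards [hK, hτ] with N hK hτ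
    have hform : IsForm (fun e z => w e z + τ N e z) :=
      hw.toIsHermitian.isForm.add hτ.toIsHermitian.isForm
    have hD : INT.IsDensity fun (e : Chart d X) z => (w e z + τ N e z).det.re :=
      INT.isDensity_det hform fun e x hx i j => (hw.smooth e x hx i j).add (hτ.smooth e x hx i j)
    have h0 : ∀ (e : Chart d X) x, At e x → 0 ≤ (w e (e x) + τ N e (e x)).det.re := fun e x hx =>
      (Complex.lt_def.1 ((hw.posDef e x hx).add_posSemidef
        (hτ.posDef e x hx).posSemidef).det_pos).1.le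
    exact (local_le_intX0 hD h0 hx.1 hBc hBt).trans (ENNReal.ofReal_le_ofReal hK)
  · filter_upwards [hdet] with N hdet z hz
    have h1 := hat z hz
    have := hdet e _ h1.1
    rwa [h1.2] at this

/-- **N3-PT.** At every point there is a space of covectors of dimension `d - k` all of whose
elements annihilate all limits of approximate kernel elements, of all degrees, for all bundles. -/
theorem grass {α : Type*} {l : Filter α} [l.NeBot] {k n : ℕ} (hk : k < d) (hnk : n ≤ k)
    {w : Fm d X} (hw : IsKahler w) {τ : α → Fm d X} (hτ : ∀ᶠ N in l, IsKahler (τ N))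
    {ε : α → ℝ} (hε0 : ∀ᶠ N in l, 0 < ε N) (hε : Tendsto ε l (𝓝 0))
    {c0 K : ℝ} (hc0 : 0 < c0)
    (hdet : ∀ᶠ N in l, ∀ (e : Chart d X) x, At e x →
      c0 * ε N ^ n * (w e (e x)).det.re ≤ (τ N e (e x)).det.re)
    (hK : ∀ᶠ N in l, INT.intX (fun e z => (w e z + τ N e z).det.re) ≤ K)
    {κ : Type*} {L : κ → LineBundle d X ι} {ρ₀ : κ → ι → X → ℝ} {v : κ → α → X → ℝ}
    {g : κ → α → H862.Fam d X ι} {G : κ → H862.Fam d X ι}
    (hA : ∀ c, AKer l w τ ε (L c) (ρ₀ c) (v c) (g c) (G c))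
    {e : Chart d X} {x : X} (hx : At e x) :
    d - k ≤ Module.finrank ℂ
      (ann fun y : {y : κ × ι // x ∈ (L y.1).U y.2} => G y.1.1 y.1.2 e (e x)) :=
  le_finrank_ann fun c J s => rank_vanish hk hnk hw hτ hε0 hε hc0 hdet hK hA hx
    (fun a => (c a).1.1) (fun a => (c a).1.2) (fun a => (c a).2) J s

end Vale.Agent.P301.H951
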